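import Vale.Agent.P330.PTEol
import Vale.Agent.Lib.PCP.CL.Main

/-!
# Straight-line programs of Boolean gates for polynomial time functions

If `(a, x) ↦ f a x : Bool` is computable in polynomial time, there are straight-line programs
`C a n` of Boolean gates of `H241/Defs`, computable in polynomial time from `a` and `n` in unary,
such that the last wire of `C a n` on every input `x` of length `n ≥ 1` is `f a x`.
-/

namespace Vale.Agent.P330.L

open Vale.Agent.Lib.PolyTime Vale.Agent.Lib.PCP

/-! ### Straight-line programs -/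

/-- The wires of a straight-line program on the input `x`. -/
def run (gs : List BGate) (x : List Bool) : List Bool := gs.foldl (fun w g => w ++ [g.eval w]) x

@[simp] theorem run_nil (x : List Bool) : run [] x = x := rfl

theorem run_cons (g : BGate) (gs : List BGate) (x : List Bool) :
    run (g :: gs) x = run gs (x ++ [g.eval x]) := rfl

theorem run_append (gs hs : List BGate) (x : List Bool) : run (gs ++ hs) x = run hs (run gs x) := by
  simp [run, List.foldl_append]

theorem run_length (gs : List BGate) (x : List Bool) :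
    (run gs x).length = x.length + gs.length := foldl_wires_length gs x

theorem run_getD (gs : List BGate) (x : List Bool) {i : ℕ} (h : i < x.length) :
    (run gs x).getD i false = x.getD i false := by
  induction gs generalizing x with
  | nil => rfl
  | cons g gs ih =>
    rw [run_cons, ih _ (by rw [List.length_append]; omega), List.getD_append _ _ _ _ h]

/-- The gates read earlier wires only (the first gate computes the wire `n`). -/
def Wf : ℕ → List BGate → Prop
  | _, [] => True
  | n, g :: gs => g.Below n ∧ Wf (n + 1) gs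

theorem wf_append {n : ℕ} {gs hs : List BGate} :
    Wf n (gs ++ hs) ↔ Wf n gs ∧ Wf (n + gs.length) hs := by
  induction gs generalizing n with
  | nil => simp [Wf]
  | cons g gs ih =>
    rw [List.cons_append, Wf, Wf, ih, List.length_cons, and_assoc,
      show n + 1 + gs.length = n + (gs.length + 1) by omega]

theorem Wf.below {n : ℕ} {gs : List BGate} (h : Wf n gs) (k : ℕ) (hk : k < gs.length) :
    gs[k].Below (n + k) := by
  induction gs generalizing n k with
  | nil => simp at hk
  | cons g gs ih =>
    cases k with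
    | zero => exact h.1
    | succ k =>
      have := ih h.2 k (by simpa using hk)
      simpa [show n + (k + 1) = n + 1 + k by omega] using this

/-- A straight-line program with output wires is a circuit in the sense of `H241/Defs`. -/
theorem Wf.isCircuit {n : ℕ} {gs : List BGate} (h : Wf n gs) {outs : List ℕ}
    (h1 : outs.length = n) (h2 : ∀ i ∈ outs, i < n + gs.length) :
    (BoolCircuit.mk gs outs).IsCircuit n := ⟨h1, h2, h.below⟩

/-- The value of a gate, the values of the wires being given by a function. -/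
def evalF (w : ℕ → Bool) : BGate → Bool
  | .and i j => w i && w j
  | .or i j => w i || w j
  | .not i => !w i

theorem evalF_getD (w : List Bool) (g : BGate) : evalF (fun i => w.getD i false) g = g.eval w := by
  cases g <;> rfl

theorem evalF_congr {w w' : ℕ → Bool} {g : BGate} {k : ℕ} (hg : g.Below k)
    (h : ∀ i < k, w i = w' i) : evalF w g = evalF w' g := by
  cases g with
  | and i j => simp only [evalF, h i hg.1, h j hg.2]
  | or i j => simp only [evalF, h i hg.1, h j hg.2]
  | not i => simp only [evalF, h i hg]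

/-- The wires `n, n + 1, …` obey the gates. -/
def Obey (w : ℕ → Bool) : ℕ → List BGate → Prop
  | _, [] => True
  | n, g :: gs => w n = evalF w g ∧ Obey w (n + 1) gs

theorem obey_append {w : ℕ → Bool} {n : ℕ} {gs hs : List BGate} :
    Obey w n (gs ++ hs) ↔ Obey w n gs ∧ Obey w (n + gs.length) hs := by
  induction gs generalizing n with
  | nil => simp [Obey]
  | cons g gs ih =>
    rw [List.cons_append, Obey, Obey, ih, List.length_cons, and_assoc,
      show n + 1 + gs.length = n + (gs.length + 1) by omega]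

theorem obey_run {gs : List BGate} {x : List Bool} (h : Wf x.length gs) :
    Obey (fun i => (run gs x).getD i false) x.length gs := by
  induction gs generalizing x with
  | nil => trivial
  | cons g gs ih =>
    have h1 : Wf (x ++ [g.eval x]).length gs := by
      rw [List.length_append]
      exact h.2
    have h2 := ih h1
    rw [List.length_append] at h2
    refine ⟨?_, h2⟩
    rw [run_cons]
    show (run gs (x ++ [g.eval x])).getD x.length false = _
    rw [run_getD _ _ (by simp)]
    rw [List.getD_append_right _ _ _ _ le_rfl]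
    rw [Nat.sub_self]
    show g.eval x = _
    rw [← evalF_getD]
    refine evalF_congr h.1 fun i hi => ?_
    rw [run_getD _ _ (by rw [List.length_append]; omega), List.getD_append _ _ _ _ hi]

theorem obey_flatMap {w : ℕ → Bool} {N : ℕ} {f : ℕ → List BGate} {n K : ℕ}
    (hK : ∀ v < N, (f v).length = K) (h : Obey w n ((List.range N).flatMap f)) :
    ((List.range N).flatMap f).length = N * K ∧ ∀ v < N, Obey w (n + v * K) (f v) := by
  induction N with
  | zero => simp
  | succ N ih =>
    rw [List.range_succ, List.flatMap_append] at h ⊢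
    rw [obey_append] at h
    obtain ⟨h1, h2⟩ := ih (fun v hv => hK v (by omega)) h.1
    refine ⟨?_, fun v hv => ?_⟩
    · rw [List.length_append, h1]
      simp only [List.flatMap_cons, List.flatMap_nil, List.append_nil]
      rw [hK N (by omega)]
      ring
    · rcases Nat.lt_succ_iff_lt_or_eq.1 hv with hv' | rfl
      · exact h2 v hv'
      · have h3 := h.2
        simp only [List.flatMap_cons, List.flatMap_nil, List.append_nil] at h3
        rwa [h1] at h3

theorem wf_flatMap {N : ℕ} {f : ℕ → List BGate} {n K : ℕ} (hK : ∀ v < N, (f v).length = K)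
    (h : ∀ v < N, Wf (n + v * K) (f v)) :
    ((List.range N).flatMap f).length = N * K ∧ Wf n ((List.range N).flatMap f) := by
  induction N with
  | zero => simp [Wf]
  | succ N ih =>
    obtain ⟨h1, h2⟩ := ih (fun v hv => hK v (by omega)) (fun v hv => h v (by omega))
    rw [List.range_succ, List.flatMap_append]
    simp only [List.flatMap_cons, List.flatMap_nil, List.append_nil]
    refine ⟨?_, ?_⟩
    · rw [List.length_append, h1, hK N (by omega)]
      ring
    · rw [wf_append]
      refine ⟨h2, ?_⟩
      rw [h1]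
      exact h N (by omega)

/-! ### The gates generated by `CL.gen` are a straight-line program -/

/-- The outputs of the gates are `ν, ν + 1, …`, and every gate reads earlier variables. -/
def SL : ℕ → List CL.Gate → Prop
  | _, [] => True
  | ν, g :: gs => (g.1 = ν ∧ g.2.1 < ν ∧ g.2.2.1 < ν ∧ g.2.2.2 < ν) ∧ SL (ν + 1) gs

theorem sl_append {ν : ℕ} {gs hs : List CL.Gate} :
    SL ν (gs ++ hs) ↔ SL ν gs ∧ SL (ν + gs.length) hs := by
  induction gs generalizing ν with
  | nil => simp [SL]
  | cons g gs ih =>
    rw [List.cons_append, SL, SL, ih, List.length_cons,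
      show ν + 1 + gs.length = ν + (gs.length + 1) by omega]
    tauto

/-- Straight-line program from `ν` to `ν'`. -/
def SLT (ν ν' : ℕ) (gs : List CL.Gate) : Prop := SL ν gs ∧ ν + gs.length = ν'

theorem SLT.append {ν ν₁ ν₂ : ℕ} {gs hs : List CL.Gate} (h1 : SLT ν ν₁ gs) (h2 : SLT ν₁ ν₂ hs) :
    SLT ν ν₂ (gs ++ hs) := by
  obtain ⟨a1, b1⟩ := h1
  obtain ⟨a2, b2⟩ := h2
  refine ⟨sl_append.2 ⟨a1, by rw [b1]; exact a2⟩, ?_⟩
  rw [List.length_append]
  omega

theorem SLT.blk {ν n : ℕ} {f : ℕ → ℕ × ℕ × ℕ}
    (h : ∀ t < n, (f t).1 < ν ∧ (f t).2.1 < ν ∧ (f t).2.2 < ν) : SLT ν (ν + n) (CL.blk ν n f) := by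
  induction n with
  | zero => simp [CL.blk, SLT, SL]
  | succ n ih =>
    have h1 := ih fun t ht => h t (by omega)
    have h2 := h n (by omega)
    have h3 : CL.blk ν (n + 1) f = CL.blk ν n f ++ [(ν + n, f n)] := by
      simp [CL.blk, List.range_succ]
    rw [h3]
    refine h1.append ⟨?_, by simp; omega⟩
    refine ⟨⟨rfl, ?_, ?_, ?_⟩, trivial⟩ <;> dsimp only <;> omega

theorem SLT.flatMap {ν K n : ℕ} {f : ℕ → List CL.Gate}
    (h : ∀ j < n, SLT (ν + j * K) (ν + (j + 1) * K) (f j)) :
    SLT ν (ν + n * K) ((List.range n).flatMap f) := by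
  induction n with
  | zero => simp [SLT, SL]
  | succ n ih =>
    rw [List.range_succ, List.flatMap_append]
    refine (ih fun j hj => h j (by omega)).append ?_
    simpa using h n (by omega)

theorem gen_slt {m L T : ℕ} (hL : 2 ≤ L) : ∀ (p : Prog), p.bound ≤ m → ∀ (α ν : ℕ), 2 ≤ ν →
    α + m * L ≤ ν → SLT ν (ν + CL.cost m L T p + m * L) (CL.gen m L T p α ν) := by
  have hpush : ∀ (i : ℕ) (b : Bool) (α ν : ℕ), 2 ≤ ν → α + m * L ≤ ν → ∀ t < m * L,
      CL.pushIx L α i b t < ν := by
    intro i b α ν h2 hα t ht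
    rw [CL.pushIx]
    split_ifs
    · omega
    · cases b <;> simp <;> omega
    · omega
    · omega
  have hpop : ∀ (i α ν : ℕ), 2 ≤ ν → α + m * L ≤ ν → ∀ t < m * L, CL.popIx L α i t < ν := by
    intro i α ν h2 hα t ht
    rw [CL.popIx]
    split_ifs with h3 h4
    · have h5 : t + 2 < m * L := by
        have h6 := Nat.div_add_mod t L
        have h7 : t / L < m := Nat.div_lt_of_lt_mul (by rw [Nat.mul_comm]; exact ht)
        have h8 : L * (t / L) + L ≤ m * L := by
          calc L * (t / L) + L = (t / L + 1) * L := by ring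
            _ ≤ m * L := Nat.mul_le_mul_right _ h7
        omega
      omega
    · omega
    · omega
  intro p
  induction p with
  | skip =>
    intro _ α ν h2 hα
    rw [CL.gen, CL.cost, add_zero]
    exact SLT.blk fun t ht => ⟨by dsimp only; omega, by dsimp only; omega, by dsimp only; omega⟩
  | push i b =>
    intro _ α ν h2 hα
    rw [CL.gen, CL.cost, add_zero]
    exact SLT.blk fun t ht => ⟨by dsimp only; omega, hpush i b α ν h2 hα t ht,
      by dsimp only; omega⟩
  | pop i =>
    intro _ α ν h2 hα
    rw [CL.gen, CL.cost, add_zero]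
    exact SLT.blk fun t ht => ⟨by dsimp only; omega, hpop i α ν h2 hα t ht,
      by dsimp only; omega⟩
  | query i j =>
    intro _ α ν h2 hα
    rw [CL.gen, CL.cost, add_zero]
    exact SLT.blk fun t ht => ⟨by dsimp only; omega, hpush j false α ν h2 hα t ht,
      by dsimp only; omega⟩
  | seq p q ihp ihq =>
    intro hb α ν h2 hα
    simp only [Prog.bound] at hb
    rw [CL.gen, CL.cost]
    have h3 := (ihp (by omega) α ν h2 hα).append (ihq (by omega) (ν + CL.cost m L T p)
      (ν + CL.cost m L T p + m * L) (by omega) (by omega))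
    rwa [show ν + CL.cost m L T p + m * L + CL.cost m L T q + m * L =
      ν + (CL.cost m L T p + m * L + CL.cost m L T q) + m * L by ring] at h3
  | ite i p q r ihp ihq ihr =>
    intro hb α ν h2 hα
    simp only [Prog.bound] at hb
    rw [CL.gen, CL.cost]
    have hi : i < m := by omega
    have h0 : i * L + 0 < m * L := CL.ix_lt hi (by omega)
    have h1 : i * L + 1 < m * L := CL.ix_lt hi (by omega)
    refine (ihp (by omega) α ν h2 hα).append ?_
    refine (ihq (by omega) α _ (by omega) (by omega)).append ?_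
    rw [show ν + CL.cost m L T p + m * L + CL.cost m L T q + m * L =
      ν + CL.cost m L T p + CL.cost m L T q + 2 * (m * L) by ring]
    refine (ihr (by omega) α _ (by omega) (by omega)).append ?_
    rw [show ν + CL.cost m L T p + CL.cost m L T q + 2 * (m * L) + CL.cost m L T r + m * L =
      ν + CL.cost m L T p + CL.cost m L T q + CL.cost m L T r + 3 * (m * L) by ring]
    refine (SLT.blk fun t ht => ?_).append ?_
    · dsimp only
      exact ⟨by omega, by omega, by omega⟩
    · rw [show ν + CL.cost m L T p + CL.cost m L T q + CL.cost m L T r + 3 * (m * L) + m * L =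
        ν + CL.cost m L T p + CL.cost m L T q + CL.cost m L T r + 4 * (m * L) by ring,
        show ν + (CL.cost m L T p + CL.cost m L T q + CL.cost m L T r + 4 * (m * L)) + m * L =
        ν + CL.cost m L T p + CL.cost m L T q + CL.cost m L T r + 4 * (m * L) + m * L by ring]
      refine SLT.blk fun t ht => ?_
      dsimp only
      exact ⟨by omega, by omega, by omega⟩
  | loop i p ihp =>
    intro hb α ν h2 hα
    simp only [Prog.bound] at hb
    rw [CL.gen, CL.cost]
    have hi : i < m := by omega
    have h0 : i * L + 0 < m * L := CL.ix_lt hi (by omega)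
    set K := CL.cost m L T p + 2 * (m * L) with hK
    refine (SLT.blk fun t ht => ?_).append ?_
    · dsimp only
      exact ⟨by omega, by omega, by omega⟩
    · rw [show ν + T * K + m * L = ν + m * L + T * K by ring]
      refine SLT.flatMap fun j hj => ?_
      have e1 : (j + 1) * K = j * K + K := by ring
      have h3 := ihp (by omega) (ν + j * K) (ν + j * K + m * L) (by omega) (by omega)
      rw [show ν + m * L + j * K = ν + j * K + m * L by ring]
      refine h3.append ?_
      rw [show ν + j * K + m * L + CL.cost m L T p + m * L = ν + (j + 1) * K by rw [e1, hK]; ring,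
        show ν + m * L + (j + 1) * K = ν + (j + 1) * K + m * L by ring]
      refine SLT.blk fun t ht => ?_
      dsimp only
      rw [e1, hK]
      exact ⟨by omega, by omega, by omega⟩

/-! ### Translation -/

/-- The wire of the variable `v`. -/
def wire (n v : ℕ) : ℕ := n + 3 + 4 * v + 3

/-- The gates of a gate of `CL.gen`. -/
def tr (n : ℕ) (g : CL.Gate) : List BGate :=
  [.and (wire n g.2.1) (wire n g.2.2.1), .not (wire n g.2.1),
    .and (n + 3 + 4 * g.1 + 1) (wire n g.2.2.2), .or (n + 3 + 4 * g.1) (n + 3 + 4 * g.1 + 2)]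

/-- Copy of a wire. -/
def cp (u : ℕ) : List BGate := [.and u u, .and u u, .and u u, .and u u]

theorem wf_cp {u n : ℕ} (h : u < n) : Wf n (cp u) := by
  refine ⟨⟨?_, ?_⟩, ⟨?_, ?_⟩, ⟨?_, ?_⟩, ⟨?_, ?_⟩, trivial⟩ <;> omega

theorem wf_tr {ν n : ℕ} : ∀ {gs : List CL.Gate}, SL ν gs →
    (gs.flatMap (tr n)).length = 4 * gs.length ∧ Wf (n + 3 + 4 * ν) (gs.flatMap (tr n))
  | [], _ => by simp [Wf]
  | g :: gs, h => by
    obtain ⟨h1, h2⟩ := wf_tr (n := n) h.2
    obtain ⟨⟨e, a, b, c⟩, -⟩ := h
    rw [List.flatMap_cons, List.length_append, h1]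
    refine ⟨by simp [tr]; omega, ?_⟩
    rw [wf_append]
    constructor
    · rw [← e] at a b c ⊢
      refine ⟨⟨?_, ?_⟩, ?_, ⟨?_, ?_⟩, ⟨?_, ?_⟩, trivial⟩ <;> (try show _ < _) <;> (try unfold wire) <;>
        omega
    · rw [show n + 3 + 4 * ν + (tr n g).length = n + 3 + 4 * (ν + 1) by simp [tr]; omega]
      exact h2

theorem ok_of_obey {w : ℕ → Bool} {ν n : ℕ} : ∀ {gs : List CL.Gate}, SL ν gs →
    Obey w (n + 3 + 4 * ν) (gs.flatMap (tr n)) → ∀ g ∈ gs, CL.Ok (fun v => w (wire n v)) g
  | [], _, _ => by simp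
  | g :: gs, h, ho => by
    rw [List.flatMap_cons, obey_append] at ho
    obtain ⟨h1, h2⟩ := ho
    rw [show n + 3 + 4 * ν + (tr n g).length = n + 3 + 4 * (ν + 1) by simp [tr]; omega] at h2
    intro g' hg'
    rcases List.mem_cons.1 hg' with rfl | hg'
    · obtain ⟨⟨e, -, -, -⟩, -⟩ := h
      obtain ⟨o1, o2, o3, o4, -⟩ := h1
      simp only [evalF] at o1 o2 o3 o4
      rw [CL.Ok]
      simp only [e]
      rw [e] at o3 o4
      rw [show wire n ν = n + 3 + 4 * ν + 1 + 1 + 1 by unfold wire; omega, o4,
        show n + 3 + 4 * ν + 2 = n + 3 + 4 * ν + 1 + 1 by omega, o1, o3, o2]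
      cases w (wire n g'.2.1) <;> simp
    · exact ok_of_obey h.2 h2 g' hg'

/-- The wire copied into the variable `v` for the initial memory (`w₀` is the known part of the
input of the program, `n` the number of unknown bits). -/
def src (w₀ : Word) (n L v : ℕ) : ℕ :=
  if v = 0 then n + 1 else if v = 1 then n + 2 else if L ≤ v - 2 then n + 1
  else if (v - 2) % 2 = 0 then (if (v - 2) / 2 < w₀.length + n then n + 2 else n + 1)
  else if (v - 2) / 2 < w₀.length then (if CL.bitAt w₀ ((v - 2) / 2) = true then n + 2 else n + 1)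
  else if (v - 2) / 2 < w₀.length + n then (v - 2) / 2 - w₀.length else n + 1

theorem src_lt (w₀ : Word) (n L v : ℕ) : src w₀ n L v < n + 3 := by
  unfold src
  split_ifs <;> omega

/-- The straight-line program. -/
def circ (p : Prog) (m L T : ℕ) (w₀ : Word) (n : ℕ) : List BGate :=
  [.not 0, .and 0 n, .or 0 n] ++
    ((List.range (2 + m * L)).flatMap (fun v => cp (src w₀ n L v)) ++
      ((CL.gen m L T p 2 (2 + m * L)).flatMap (tr n) ++
        [.and (wire n (2 + m * L + CL.cost m L T p + 1)) (wire n (2 + m * L + CL.cost m L T p + 1))]))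

section

variable {p : Prog} {m L T n : ℕ} {w₀ : Word}

theorem circ_wf (hb : p.bound ≤ m) (hm : 0 < m) (hL : 2 ≤ L) (hn : 1 ≤ n) :
    Wf n (circ p m L T w₀ n) := by
  obtain ⟨a1, a2⟩ := gen_slt (m := m) (L := L) (T := T) hL p hb 2 (2 + m * L) (by omega) le_rfl
  obtain ⟨b1, b2⟩ := wf_tr (n := n) a1
  obtain ⟨c1, c2⟩ := wf_flatMap (N := 2 + m * L) (f := fun v => cp (src w₀ n L v)) (n := n + 3)
    (K := 4) (fun v _ => rfl) (fun v _ => wf_cp (by have := src_lt w₀ n L v; omega))
  have hmL : 2 ≤ m * L := le_trans hL (Nat.le_mul_of_pos_left _ hm)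
  rw [circ, wf_append, wf_append, wf_append]
  refine ⟨⟨?_, ⟨?_, ?_⟩, ⟨?_, ?_⟩, trivial⟩, c2, ?_, ?_⟩
  · show 0 < n
    omega
  · omega
  · omega
  · omega
  · omega
  · rw [c1, show n + [BGate.not 0, BGate.and 0 n, BGate.or 0 n].length + (2 + m * L) * 4 =
      n + 3 + 4 * (2 + m * L) by simp; ring]
    exact b2
  · rw [c1, b1, show n + [BGate.not 0, BGate.and 0 n, BGate.or 0 n].length + (2 + m * L) * 4 +
      4 * (CL.gen m L T p 2 (2 + m * L)).length =
      n + 3 + 4 * (2 + m * L + (CL.gen m L T p 2 (2 + m * L)).length) by simp; ring, a2]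
    refine ⟨⟨?_, ?_⟩, trivial⟩ <;> (unfold wire; omega)

theorem circ_getLast (hb : p.bound ≤ m) (hm : 0 < m) (hn : 1 ≤ n) {x : Word} (hx : x.length = n)
    {b : Bool} (hL : 2 * (w₀.length + n + T) ≤ L) (hL2 : 2 ≤ L)
    (hrun : ∃ t s, Eval ∅ p (start (w₀ ++ x) []) t s ∧ t ≤ T ∧ s 0 = [b]) :
    (run (circ p m L T w₀ n) x).getLast? = some b := by
  obtain ⟨a1, a2⟩ := gen_slt (m := m) (L := L) (T := T) hL2 p hb 2 (2 + m * L) (by omega) le_rfl
  have hwf : Wf x.length (circ p m L T w₀ n) := by
    rw [hx]
    exact circ_wf hb hm hL2 hn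
  have ho := obey_run hwf
  set w : ℕ → Bool := fun i => (run (circ p m L T w₀ n) x).getD i false with hw
  have hin : ∀ i < n, w i = x.getD i false := fun i hi => run_getD _ _ (by omega)
  rw [hx] at ho
  rw [circ] at ho
  rw [obey_append, obey_append, obey_append] at ho
  obtain ⟨⟨p1, p2, p3, -⟩, o1, o2, o3⟩ := ho
  obtain ⟨c1, c2⟩ := obey_flatMap (K := 4) (fun v _ => rfl) o1
  simp only [evalF] at p1 p2 p3
  have e1 : w (n + 1) = false := by rw [p2, p1]; cases w 0 <;> rfl
  have e2 : w (n + 2) = true := by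
    rw [show n + 2 = n + 1 + 1 by omega, p3, p1]
    cases w 0 <;> rfl
  have hsrc : ∀ v < 2 + m * L, w (wire n v) = w (src w₀ n L v) := by
    intro v hv
    obtain ⟨q1, q2, q3, q4, -⟩ := c2 v hv
    simp only [evalF, Bool.and_self, List.length_cons, List.length_nil] at q4
    rw [← q4]
    congr 1
    unfold wire
    omega
  set σ : ℕ → Bool := fun v => w (wire n v) with hσ
  have s0 : σ 0 = false := by
    show w (wire n 0) = false
    rw [hsrc 0 (by omega)]
    exact e1
  have s1 : σ 1 = true := by
    show w (wire n 1) = true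
    rw [hsrc 1 (by omega)]
    exact e2
  have hrep : CL.Rep m L σ 2 (start (w₀ ++ x) []) := by
    intro i hi k hk
    have hlt := CL.ix_lt hi hk
    show w (wire n (2 + (i * L + k))) = _
    rw [hsrc _ (by omega)]
    unfold src
    rw [if_neg (by omega), if_neg (by omega), show 2 + (i * L + k) - 2 = i * L + k by omega]
    rcases Nat.eq_zero_or_pos i with rfl | hi0
    · have e0 : start (w₀ ++ x) [] 0 = w₀ ++ x := by simp [start]
      rw [e0, zero_mul, zero_add, CL.cell_eq, List.length_append, hx, if_neg (by omega)]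
      by_cases h2 : k % 2 = 0
      · rw [if_pos h2, if_pos h2]
        by_cases h3 : k / 2 < w₀.length + n
        · rw [if_pos h3, e2, decide_eq_true h3]
        · rw [if_neg h3, e1, decide_eq_false h3]
      · rw [if_neg h2, if_neg h2]
        by_cases h3 : k / 2 < w₀.length
        · rw [if_pos h3, List.getD_append _ _ _ _ h3, ← CL.bitAt_eq]
          by_cases h4 : CL.bitAt w₀ (k / 2) = true
          · rw [if_pos h4, h4, e2]
          · rw [if_neg h4, e1]
            simpa using h4
        · rw [if_neg h3, List.getD_append_right _ _ _ _ (by omega)]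
          by_cases h4 : k / 2 < w₀.length + n
          · rw [if_pos h4, hin _ (by omega)]
          · rw [if_neg h4, e1, List.getD_eq_default _ _ (by omega)]
    · have e0 : start (w₀ ++ x) [] i = [] := by
        simp only [start]
        split_ifs <;> first | omega | rfl
      have h1 : L ≤ i * L + k := by
        calc L = 1 * L := by ring
          _ ≤ i * L := Nat.mul_le_mul_right _ hi0
          _ ≤ i * L + k := by omega
      rw [e0, CL.cell_nil, if_pos h1, e1]
  have hok : ∀ g ∈ CL.gen m L T p 2 (2 + m * L), CL.Ok σ g := by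
    refine ok_of_obey a1 ?_
    rw [c1, show n + [BGate.not 0, BGate.and 0 n, BGate.or 0 n].length + (2 + m * L) * 4 =
      n + 3 + 4 * (2 + m * L) by simp; ring] at o2
    exact o2
  obtain ⟨t, s, he, ht, hs⟩ := hrun
  have hlen : ∀ i, (start (w₀ ++ x) [] i).length ≤ w₀.length + n := by
    intro i
    simp only [start]
    split_ifs
    · rw [List.length_append, hx]
    · simp
    · simp
  have hr := CL.gen_sound (T := T) hL2 s0 s1 p hb 2 (2 + m * L) _ t s he ht
    (fun i => by have := hlen i; omega) hrep hok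
  have h1 := hr 0 hm 1 (by omega)
  rw [zero_mul, zero_add, hs, CL.cell_cons_one] at h1
  have hlast : run (circ p m L T w₀ n) x = run ([.not 0, .and 0 n, .or 0 n] ++
    ((List.range (2 + m * L)).flatMap (fun v => cp (src w₀ n L v)) ++
      (CL.gen m L T p 2 (2 + m * L)).flatMap (tr n))) x ++ [b] := by
    have h2 : circ p m L T w₀ n = ([.not 0, .and 0 n, .or 0 n] ++
      ((List.range (2 + m * L)).flatMap (fun v => cp (src w₀ n L v)) ++
      (CL.gen m L T p 2 (2 + m * L)).flatMap (tr n))) ++
        [.and (wire n (2 + m * L + CL.cost m L T p + 1))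
          (wire n (2 + m * L + CL.cost m L T p + 1))] := by
      simp [circ]
    have h3 : ∀ (gs : List BGate) (g : BGate), run (gs ++ [g]) x =
        run gs x ++ [g.eval (run gs x)] := by
      intro gs g
      rw [run_append]
      rfl
    have h4 := h3 ([.not 0, .and 0 n, .or 0 n] ++
      ((List.range (2 + m * L)).flatMap (fun v => cp (src w₀ n L v)) ++
      (CL.gen m L T p 2 (2 + m * L)).flatMap (tr n))) (.and
        (wire n (2 + m * L + CL.cost m L T p + 1)) (wire n (2 + m * L + CL.cost m L T p + 1)))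
    rw [← h2] at h4
    rw [h4]
    congr 2
    obtain ⟨b1, b2⟩ := wf_tr (n := n) a1
    have h5 : wire n (2 + m * L + CL.cost m L T p + 1) < (run ([.not 0, .and 0 n, .or 0 n] ++
      ((List.range (2 + m * L)).flatMap (fun v => cp (src w₀ n L v)) ++
      (CL.gen m L T p 2 (2 + m * L)).flatMap (tr n))) x).length := by
      rw [run_length, List.length_append, List.length_append, c1, b1, hx]
      have : 2 ≤ m * L := le_trans hL2 (Nat.le_mul_of_pos_left _ hm)
      unfold wire
      simp only [List.length_cons, List.length_nil]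
      omega
    have h6 : (run ([.not 0, .and 0 n, .or 0 n] ++
      ((List.range (2 + m * L)).flatMap (fun v => cp (src w₀ n L v)) ++
      (CL.gen m L T p 2 (2 + m * L)).flatMap (tr n))) x).getD
        (wire n (2 + m * L + CL.cost m L T p + 1)) false = b := by
      rw [← h1]
      show _ = (run (circ p m L T w₀ n) x).getD _ false
      rw [h4, List.getD_append _ _ _ _ h5]
    simp only [BGate.eval]
    rw [h6, Bool.and_self]
  rw [hlast]
  simp

end

/-! ### Polynomial time -/

section PT

variable {A : Set Word} {γ : Type} [Enc γ]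

theorem PT_bmk {f : γ → ℕ × ℕ × ℕ} {g : γ → BGate} (hf : PT A f)
    (h : ∀ a, (g a).data = f a) : PT A g := by
  obtain ⟨F, hF, hF'⟩ := hf
  refine ⟨F, hF, fun a => ?_⟩
  rw [hF', ← h a]
  show _ = bgateW (g a)
  cases g a <;> simp only [BGate.data, enc_pair, pr_eq_pairW, enc_nat, bgateW]

theorem PT_band {i j : γ → ℕ} (hi : PT A i) (hj : PT A j) : PT A (fun a => BGate.and (i a) (j a)) :=
  PT_bmk ((PT.const 0).pair (hi.pair hj)) fun _ => rfl

theorem PT_bor {i j : γ → ℕ} (hi : PT A i) (hj : PT A j) : PT A (fun a => BGate.or (i a) (j a)) :=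
  PT_bmk ((PT.const 1).pair (hi.pair hj)) fun _ => rfl

theorem PT_bnot {i : γ → ℕ} (hi : PT A i) : PT A (fun a => BGate.not (i a)) :=
  PT_bmk ((PT.const 2).pair (hi.pair (PT.const 0))) fun _ => rfl

theorem pt_wire {n v : γ → ℕ} (hn : PT A n) (hv : PT A v) : PT A (fun a => wire (n a) (v a)) :=
  ((hn.add (PT.const 3)).add ((PT.const 4).mul hv)).add (PT.const 3)

theorem pt_tr {n : γ → ℕ} {g : γ → CL.Gate} (hn : PT A n) (hg : PT A g) :
    PT A (fun a => tr (n a) (g a)) := by
  have h1 : PT A (fun a => (g a).2.1) := hg.snd.fst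
  have h2 : PT A (fun a => (g a).2.2.1) := hg.snd.snd.fst
  have h3 : PT A (fun a => (g a).2.2.2) := hg.snd.snd.snd
  have h0 : PT A (fun a => n a + 3 + 4 * (g a).1) :=
    (hn.add (PT.const 3)).add ((PT.const 4).mul hg.fst)
  exact PT.cons (PT_band (pt_wire hn h1) (pt_wire hn h2)) (PT.cons (PT_bnot (pt_wire hn h1))
    (PT.cons (PT_band (h0.add (PT.const 1)) (pt_wire hn h3))
      (PT.cons (PT_bor h0 (h0.add (PT.const 2))) PT.nil)))

theorem pt_cp {u : γ → ℕ} (hu : PT A u) : PT A (fun a => cp (u a)) := by
  have h := PT_band hu hu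
  exact PT.cons h (PT.cons h (PT.cons h (PT.cons h PT.nil)))

theorem pt_src {w : γ → Raw} {n L v : γ → ℕ} (hw : PT A w) (hn : PT A n) (hL : PT A L)
    (hv : PT A v) : PT A (fun a => src (w a).w (n a) (L a) (v a)) := by
  have h2 : PT A (fun a => (v a - 2) / 2) := (hv.sub (PT.const 2)).half
  have h3 : PT A (fun a => (v a - 2) % 2) := (hv.sub (PT.const 2)).mod (PT.const 2)
  have hl := PT.rawLength hw
  have n1 := hn.add (PT.const (A := A) (α := γ) 1)
  have n2 := hn.add (PT.const (A := A) (α := γ) 2)
  refine PT.ite (PT.eqNat hv (PT.const 0)) n1 (PT.ite (PT.eqNat hv (PT.const 1)) n2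
    (PT.ite (PT.le hL (hv.sub (PT.const 2))) n1 (PT.ite (PT.eqNat h3 (PT.const 0))
      (PT.ite (PT.lt h2 (hl.add hn)) n2 n1) (PT.ite (PT.lt h2 hl) (PT.ite ?_ n2 n1)
        (PT.ite (PT.lt h2 (hl.add hn)) (h2.sub hl) n1)))))
  refine (CL.pt_bitAt hw h2).congr fun a => ?_
  cases CL.bitAt (w a).w ((v a - 2) / 2) <;> simp

theorem pt_circ (p : Prog) (m : ℕ) {L T n : γ → ℕ} {w : γ → Raw} (hL : PT A L) (hLb : PBd L)
    (hT : PT A T) (hTb : PBd T) (hn : PT A n) (hw : PT A w) :
    PT A (fun a => circ p m (L a) (T a) (w a).w (n a)) := by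
  have hmL : PT A (fun a => m * L a) := (PT.const m).mul hL
  have hν : PT A (fun a => 2 + m * L a) := (PT.const 2).add hmL
  have hνb : PBd (fun a => 2 + m * L a) := (PBd.const 2).add ((PBd.const m).mul hLb)
  have hc : PT A (fun a => CL.cost m (L a) (T a) p) := CL.pt_cost m p hL hT
  have ho := pt_wire hn ((hν.add hc).add (PT.const 1))
  refine PT.append (PT.cons (PT.const _) (PT.cons (PT_band (PT.const 0) hn)
    (PT.cons (PT_bor (PT.const 0) hn) PT.nil))) (PT.append
      (PT.flatMap (f := fun a v => cp (src (w a).w (n a) (L a) v)) (PT.range hν hνb)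
        (pt_cp (pt_src (hw.comp PT.fst') (hn.comp PT.fst') (hL.comp PT.fst') PT.snd')))
      (PT.append (PT.flatMap (f := fun a g => tr (n a) g)
        (CL.pt_gen m p hL hLb hT hTb (PT.const 2) hν) (pt_tr (hn.comp PT.fst') PT.snd'))
        (PT.cons (PT_band ho ho) PT.nil)))

end PT

/-! ### The theorem -/

/-- Straight-line programs for a polynomial time function: `C a n` is computable in polynomial
time from `a` and `n` in unary, every gate reads earlier wires, and for every input `x` of length
`n ≥ 1` the last wire is `f a x`. -/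
theorem exists_circ {γ : Type} [Enc γ] {f : γ → List Bool → Bool}
    (hf : PT ∅ (fun q : γ × Raw => f q.1 q.2.w)) :
    ∃ C : γ → ℕ → List BGate, PT ∅ (fun q : γ × Un => C q.1 q.2.v) ∧
      ∀ a n, 1 ≤ n → C a n ≠ [] ∧ Wf n (C a n) ∧
        ∀ x, x.length = n → (run (C a n) x).getLast? = some (f a x) := by
  obtain ⟨g, hg, hg'⟩ := hf
  obtain ⟨p, T₀, hp⟩ := hg.exists_prog
  set m := max p.bound 1 with hm
  let N : γ → ℕ → ℕ := fun a n => (pr (enc a) []).length + n
  let T : γ → ℕ → ℕ := fun a n => T₀.eval (N a n)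
  let W : γ → ℕ → ℕ := fun a n => 2 * (N a n + T a n) + 3
  refine ⟨fun a n => circ p m (W a n) (T a n) (pr (enc a) []) n, ?_, fun a n hn =>
    ⟨by simp [circ], circ_wf (le_max_left _ _) (by omega) (by simp only [W]; omega) hn,
      fun x hx => ?_⟩⟩
  · have hn : PT ∅ (fun q : γ × Un => q.2.v) := PT.unVal PT.snd'
    have hnb : PBd (fun q : γ × Un => q.2.v) := PBd.unVal (A := ∅) PT.snd'
    have hw : PT ∅ (fun q : γ × Un => Raw.mk (pr (enc q.1) [])) := by
      obtain ⟨F, hF, hF'⟩ := PT.pair (A := ∅) (PT.fst' : PT ∅ (fun q : γ × Un => q.1))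
        (PT.const (Raw.mk []))
      exact ⟨F, hF, fun q => hF' q⟩
    have hl := PT.rawLength hw
    have hlb : PBd (fun q : γ × Un => (pr (enc q.1) []).length) := by
      have := hw.pbd
      exact this
    have hN : PT ∅ (fun q : γ × Un => N q.1 q.2.v) := hl.add hn
    have hNb : PBd (fun q : γ × Un => N q.1 q.2.v) := hlb.add hnb
    have hT : PT ∅ (fun q : γ × Un => T q.1 q.2.v) := CL.pt_poly T₀ hN
    have hTb : PBd (fun q : γ × Un => T q.1 q.2.v) := CL.pbd_poly T₀ hNb
    have hW : PT ∅ (fun q : γ × Un => W q.1 q.2.v) :=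
      ((PT.const 2).mul (hN.add hT)).add (PT.const 3)
    have hWb : PBd (fun q : γ × Un => W q.1 q.2.v) :=
      ((PBd.const 2).mul (hNb.add hTb)).add (PBd.const 3)
    exact pt_circ p m hW hWb hT hTb hn hw
  · refine circ_getLast (le_max_left _ _) (by omega) hn hx (by simp only [W, N]; omega)
      (by simp only [W]; omega) ?_
    obtain ⟨t, s, h1, h2, h3⟩ := hp (pr (enc a) x)
    have e : pr (enc a) [] ++ x = pr (enc a) x := (CL.pr_append _ _).symm
    refine ⟨t, s, by rw [e]; exact h1, ?_, ?_⟩
    · refine h2.trans (le_of_eq ?_)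
      simp only [T, N]
      rw [← e, List.length_append, hx]
    · rw [h3]
      exact hg' (a, ⟨x⟩)

end Vale.Agent.P330.L
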