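import Vale.Agent.P330.KG

/-!
# The Gödel gadget (project L, block L:GOD)

Analog formulas with `1 - x`, `min` and `max`, their compilation to programs of `Const`, `Copy`,
`Add`, `Sub` operations, and the disjunction of all the implicants of a Boolean function in Gödel
logic: `god ψ` is a program over the inputs `ι` such that

* if every completion of the inputs (`< s` read as `false`, `> 1 - s` read as `true`, anything in
  between arbitrary) gives `ψ = false`, then the result is `< s` plus the error of the gates;
* if every completion gives `ψ = true`, then the result is `> 1 - s` minus the error.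
-/

namespace Vale.Agent.P330.L

open Vale.Agent.P330

/-! ### Lists of operations started at an internal node -/

section lists

variable {ι : Type}

/-- The operations of the list write the internal nodes `n, n + 1, …` and are satisfied. -/
def SatFrom (ε : ℝ) (x : ι ⊕ ℕ → ℝ) (n : ℕ) (l : List (Op (ι ⊕ ℕ))) : Prop :=
  ∀ (k : ℕ) (o : Op (ι ⊕ ℕ)), l[k]? = some o → o.Sat ε x (x (Sum.inr (n + k)))

/-- The operations of the list write the internal nodes `n, n + 1, …` and read only internal nodes
with smaller numbers. -/
def BelowFrom (n : ℕ) (l : List (Op (ι ⊕ ℕ))) : Prop :=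
  ∀ (k : ℕ) (o : Op (ι ⊕ ℕ)), l[k]? = some o → ∀ j, Sum.inr j ∈ o.ins → j < n + k

theorem satFrom_nil (ε : ℝ) (x : ι ⊕ ℕ → ℝ) (n : ℕ) : SatFrom ε x n [] := by
  intro k o h; simp at h

theorem satFrom_cons {ε : ℝ} {x : ι ⊕ ℕ → ℝ} {n : ℕ} {o : Op (ι ⊕ ℕ)}
    {l : List (Op (ι ⊕ ℕ))} :
    SatFrom ε x n (o :: l) ↔ o.Sat ε x (x (Sum.inr n)) ∧ SatFrom ε x (n + 1) l := by
  constructor
  · intro h
    refine ⟨by simpa using h 0 o rfl, fun k p hp => ?_⟩
    have := h (k + 1) p (by simpa using hp)
    rwa [show n + (k + 1) = n + 1 + k by ring] at this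
  · rintro ⟨h1, h2⟩ k p hp
    rcases k with _ | k
    · simp at hp; subst hp; simpa using h1
    · have := h2 k p (by simpa using hp)
      rwa [show n + 1 + k = n + (k + 1) by ring] at this

theorem satFrom_append {ε : ℝ} {x : ι ⊕ ℕ → ℝ} {n : ℕ} {l l' : List (Op (ι ⊕ ℕ))} :
    SatFrom ε x n (l ++ l') ↔ SatFrom ε x n l ∧ SatFrom ε x (n + l.length) l' := by
  induction l generalizing n with
  | nil => simp [satFrom_nil]
  | cons o l ih =>
    rw [List.cons_append, satFrom_cons, satFrom_cons, ih, and_assoc, List.length_cons,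
      show n + 1 + l.length = n + (l.length + 1) by ring]

theorem belowFrom_nil (n : ℕ) : BelowFrom n ([] : List (Op (ι ⊕ ℕ))) := by
  intro k o h; simp at h

theorem belowFrom_cons {n : ℕ} {o : Op (ι ⊕ ℕ)} {l : List (Op (ι ⊕ ℕ))} :
    BelowFrom n (o :: l) ↔ (∀ j, Sum.inr j ∈ o.ins → j < n) ∧ BelowFrom (n + 1) l := by
  constructor
  · intro h
    refine ⟨fun j hj => by simpa using h 0 o rfl j hj, fun k p hp j hj => ?_⟩
    have := h (k + 1) p (by simpa using hp) j hj
    omega
  · rintro ⟨h1, h2⟩ k p hp j hj
    rcases k with _ | k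
    · simp at hp; subst hp; simpa using h1 j hj
    · have := h2 k p (by simpa using hp) j hj
      omega

theorem belowFrom_append {n : ℕ} {l l' : List (Op (ι ⊕ ℕ))} :
    BelowFrom n (l ++ l') ↔ BelowFrom n l ∧ BelowFrom (n + l.length) l' := by
  induction l generalizing n with
  | nil => simp [belowFrom_nil]
  | cons o l ih =>
    rw [List.cons_append, belowFrom_cons, belowFrom_cons, ih, and_assoc, List.length_cons,
      show n + 1 + l.length = n + (l.length + 1) by ring]

end lists

/-! ### Elementary gadgets: `1 - x`, `min`, `max` -/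

section gadgets

variable {W : Type} {ε : ℝ} {x : W → ℝ}

/-- `1 - a` from a constant node and a subtraction. -/
theorem neg_spec {a o : W} {t : ℝ} (ha : x a ≤ 1) (ho : |x o - 1| ≤ ε)
    (h : (Op.sub o a).Sat ε x t) : |t - (1 - x a)| ≤ 2 * ε := by
  simp only [Op.Sat] at h
  have h1 : |max (x o - x a) 0 - (1 - x a)| ≤ ε := by
    rw [abs_le] at ho ⊢
    constructor
    · have := le_max_left (x o - x a) 0; linarith
    · have : max (x o - x a) 0 ≤ 1 - x a + ε := max_le (by linarith) (by linarith)
      linarith
  rw [abs_le] at h h1 ⊢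
  constructor <;> linarith [h.1, h.2, h1.1, h1.2]

/-- `min a b` from two subtractions. -/
theorem min_spec {a b u : W} {t : ℝ} (ha : 0 ≤ x a) (hb : 0 ≤ x b)
    (hu : (Op.sub a b).Sat ε x (x u)) (h : (Op.sub a u).Sat ε x t) :
    |t - min (x a) (x b)| ≤ 2 * ε := by
  simp only [Op.Sat] at h hu
  have hm : min (x a) (x b) = max (x a - max (x a - x b) 0) 0 := by
    rcases le_total (x a) (x b) with h1 | h1
    · rw [min_eq_left h1, max_eq_right (by linarith : x a - x b ≤ 0), sub_zero, max_eq_left ha]
    · rw [min_eq_right h1, max_eq_left (by linarith : 0 ≤ x a - x b), sub_sub_cancel,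
        max_eq_left hb]
  have h1 : |max (x a - x u) 0 - min (x a) (x b)| ≤ ε := by
    rw [hm]
    refine (abs_max_sub_max_le_abs _ _ _).trans ?_
    rw [show x a - x u - (x a - max (x a - x b) 0) = -(x u - max (x a - x b) 0) by ring, abs_neg]
    exact hu
  rw [abs_le] at h h1 ⊢
  constructor <;> linarith [h.1, h.2, h1.1, h1.2]

/-- `max a b` from a subtraction and an addition. -/
theorem max_spec {a b u : W} {t : ℝ} (ha : x a ≤ 1) (hb : x b ≤ 1)
    (hu : (Op.sub a b).Sat ε x (x u)) (h : (Op.add b u).Sat ε x t) :
    |t - max (x a) (x b)| ≤ 2 * ε := by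
  simp only [Op.Sat] at h hu
  have hm : max (x a) (x b) = min (x b + max (x a - x b) 0) 1 := by
    rcases le_total (x a) (x b) with h1 | h1
    · rw [max_eq_right h1, max_eq_right (by linarith : x a - x b ≤ 0), add_zero, min_eq_left hb]
    · rw [max_eq_left h1, max_eq_left (by linarith : 0 ≤ x a - x b), add_sub_cancel,
        min_eq_left ha]
  have h1 : |min (x b + x u) 1 - max (x a) (x b)| ≤ ε := by
    rw [hm]
    refine (abs_min_sub_min_le_max _ _ _ _).trans ?_
    rw [sub_self, abs_zero, show x b + x u - (x b + max (x a - x b) 0) =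
      x u - max (x a - x b) 0 by ring]
    exact max_le hu ((abs_nonneg _).trans hu)
  rw [abs_le] at h h1 ⊢
  constructor <;> linarith [h.1, h.2, h1.1, h1.2]

end gadgets

/-! ### Analog formulas -/

/-- Analog formulas over the variables `ι`. -/
inductive AF (ι : Type) where
  | one
  | zero
  | var (i : ι)
  | neg (a : AF ι)
  | min (a b : AF ι)
  | max (a b : AF ι)

namespace AF

variable {ι : Type}

/-- The value of an analog formula. -/
def val (c : ι → ℝ) : AF ι → ℝ
  | one => 1
  | zero => 0
  | var i => c i
  | neg a => 1 - a.val c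
  | min a b => Min.min (a.val c) (b.val c)
  | max a b => Max.max (a.val c) (b.val c)

/-- The error of the compiled formula, in multiples of `ε`. -/
def err : AF ι → ℕ
  | one => 1
  | zero => 1
  | var _ => 1
  | neg a => a.err + 2
  | min a b => Max.max a.err b.err + 2
  | max a b => Max.max a.err b.err + 2

/-- The number of operations of the compiled formula. -/
def size : AF ι → ℕ
  | one => 1
  | zero => 1
  | var _ => 1
  | neg a => a.size + 2
  | min a b => a.size + (b.size + 2)
  | max a b => a.size + (b.size + 2)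

theorem size_pos (F : AF ι) : 0 < F.size := by cases F <;> simp [size]

/-- The program of a formula, with the internal nodes starting at `n`. -/
def comp : AF ι → ℕ → List (Op (ι ⊕ ℕ))
  | one, _ => [.const 1]
  | zero, _ => [.const 0]
  | var i, _ => [.copy (Sum.inl i)]
  | neg a, n => a.comp n ++
      [.const 1, .sub (Sum.inr (n + a.size)) (Sum.inr (n + a.size - 1))]
  | min a b, n => a.comp n ++ (b.comp (n + a.size) ++
      [.sub (Sum.inr (n + a.size - 1)) (Sum.inr (n + a.size + b.size - 1)),
        .sub (Sum.inr (n + a.size - 1)) (Sum.inr (n + a.size + b.size))])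
  | max a b, n => a.comp n ++ (b.comp (n + a.size) ++
      [.sub (Sum.inr (n + a.size - 1)) (Sum.inr (n + a.size + b.size - 1)),
        .add (Sum.inr (n + a.size + b.size - 1)) (Sum.inr (n + a.size + b.size))])

@[simp] theorem length_comp (F : AF ι) (n : ℕ) : (F.comp n).length = F.size := by
  induction F generalizing n with
  | one => rfl
  | zero => rfl
  | var i => rfl
  | neg a ih => simp [comp, size, ih]
  | min a b iha ihb => simp [comp, size, iha, ihb]
  | max a b iha ihb => simp [comp, size, iha, ihb]

theorem below_comp (F : AF ι) (n : ℕ) : BelowFrom n (F.comp n) := by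
  induction F generalizing n with
  | one => simp [comp, belowFrom_cons, belowFrom_nil, Op.ins]
  | zero => simp [comp, belowFrom_cons, belowFrom_nil, Op.ins]
  | var i => simp [comp, belowFrom_cons, belowFrom_nil, Op.ins]
  | neg a ih =>
    have := a.size_pos
    simp only [comp, belowFrom_append, belowFrom_cons, belowFrom_nil, Op.ins, length_comp, ih n,
      true_and, and_true, List.not_mem_nil, false_imp_iff, implies_true, List.mem_cons,
      Sum.inr.injEq, or_false]
    intro j hj; omega
  | min a b iha ihb =>
    have := a.size_pos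
    have := b.size_pos
    simp only [comp, belowFrom_append, belowFrom_cons, belowFrom_nil, Op.ins, length_comp, iha n,
      ihb (n + a.size), true_and, and_true, List.not_mem_nil, List.mem_cons,
      Sum.inr.injEq, or_false]
    exact ⟨fun j hj => by omega, fun j hj => by omega⟩
  | max a b iha ihb =>
    have := a.size_pos
    have := b.size_pos
    simp only [comp, belowFrom_append, belowFrom_cons, belowFrom_nil, Op.ins, length_comp, iha n,
      ihb (n + a.size), true_and, and_true, List.not_mem_nil, List.mem_cons,
      Sum.inr.injEq, or_false]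
    exact ⟨fun j hj => by omega, fun j hj => by omega⟩

theorem params_comp (F : AF ι) (n : ℕ) : ∀ o ∈ F.comp n, ∀ α ∈ o.params, 0 ≤ α ∧ α ≤ 1 := by
  induction F generalizing n with
  | one => simp [comp, Op.params]
  | zero => simp [comp, Op.params]
  | var i => simp [comp, Op.params]
  | neg a ih =>
    intro o ho
    simp only [comp, List.mem_append, List.mem_cons, List.not_mem_nil, or_false] at ho
    rcases ho with ho | rfl | rfl
    · exact ih n o ho
    · simp [Op.params]
    · simp [Op.params]
  | min a b iha ihb =>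
    intro o ho
    simp only [comp, List.mem_append, List.mem_cons, List.not_mem_nil, or_false] at ho
    rcases ho with ho | ho | rfl | rfl
    · exact iha n o ho
    · exact ihb _ o ho
    · simp [Op.params]
    · simp [Op.params]
  | max a b iha ihb =>
    intro o ho
    simp only [comp, List.mem_append, List.mem_cons, List.not_mem_nil, or_false] at ho
    rcases ho with ho | ho | rfl | rfl
    · exact iha n o ho
    · exact ihb _ o ho
    · simp [Op.params]
    · simp [Op.params]

/-- The compiled formula computes the value, up to `err * ε`. -/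
theorem comp_spec {ε : ℝ} (x : ι ⊕ ℕ → ℝ) (hx : ∀ w, 0 ≤ x w ∧ x w ≤ 1)
    (F : AF ι) (n : ℕ) (h : SatFrom ε x n (F.comp n)) :
    |x (Sum.inr (n + F.size - 1)) - F.val (fun i => x (Sum.inl i))| ≤ F.err * ε := by
  induction F generalizing n with
  | one =>
    simp only [comp, satFrom_cons, Op.Sat] at h
    simpa [val, err, size] using h.1
  | zero =>
    simp only [comp, satFrom_cons, Op.Sat] at h
    simpa [val, err, size] using h.1
  | var i =>
    simp only [comp, satFrom_cons, Op.Sat] at h
    simpa [val, err, size] using h.1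
  | neg a ih =>
    simp only [comp, satFrom_append, satFrom_cons, length_comp] at h
    obtain ⟨h1, h2, h3, -⟩ := h
    have h4 := ih n h1
    have h5 := neg_spec (hx (Sum.inr (n + a.size - 1))).2 (by simpa [Op.Sat] using h2) h3
    have e : n + (neg a).size - 1 = n + a.size + 1 := by simp only [size]; omega
    rw [e]
    simp only [val, err]
    push_cast
    rw [abs_le] at h4 h5 ⊢
    constructor <;> linarith [h4.1, h4.2, h5.1, h5.2]
  | min a b iha ihb =>
    simp only [comp, satFrom_append, satFrom_cons, length_comp] at h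
    obtain ⟨h1, h2, h3, h4, -⟩ := h
    have h5 := iha n h1
    have h6 := ihb (n + a.size) h2
    have h7 := min_spec (hx (Sum.inr (n + a.size - 1))).1
      (hx (Sum.inr (n + a.size + b.size - 1))).1 h3 h4
    have e : n + (min a b).size - 1 = n + a.size + b.size + 1 := by simp only [size]; omega
    rw [e]
    simp only [val, err]
    push_cast
    have hε : 0 ≤ ε := by
      have := (abs_nonneg _).trans h7; linarith
    have h8 := (abs_min_sub_min_le_max (x (Sum.inr (n + a.size - 1)))
      (x (Sum.inr (n + a.size + b.size - 1))) (a.val fun i => x (Sum.inl i))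
      (b.val fun i => x (Sum.inl i))).trans (max_le_max h5 h6)
    rw [← max_mul_of_nonneg _ _ hε] at h8
    rw [abs_le] at h7 h8 ⊢
    constructor <;> linarith [h7.1, h7.2, h8.1, h8.2]
  | max a b iha ihb =>
    simp only [comp, satFrom_append, satFrom_cons, length_comp] at h
    obtain ⟨h1, h2, h3, h4, -⟩ := h
    have h5 := iha n h1
    have h6 := ihb (n + a.size) h2
    have h7 := max_spec (hx (Sum.inr (n + a.size - 1))).2
      (hx (Sum.inr (n + a.size + b.size - 1))).2 h3 h4
    have e : n + (max a b).size - 1 = n + a.size + b.size + 1 := by simp only [size]; omega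
    rw [e]
    simp only [val, err]
    push_cast
    have hε : 0 ≤ ε := by
      have := (abs_nonneg _).trans h7; linarith
    have h8 := (abs_max_sub_max_le_max (x (Sum.inr (n + a.size - 1)))
      (x (Sum.inr (n + a.size + b.size - 1))) (a.val fun i => x (Sum.inl i))
      (b.val fun i => x (Sum.inl i))).trans (max_le_max h5 h6)
    rw [← max_mul_of_nonneg _ _ hε] at h8
    rw [abs_le] at h7 h8 ⊢
    constructor <;> linarith [h7.1, h7.2, h8.1, h8.2]

/-- The program of an analog formula. -/
def prog (F : AF ι) : Prog ι where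
  ops := F.comp 0
  pos := by rw [length_comp]; exact F.size_pos
  below := fun k o h j hj => by
    have := below_comp F 0 k o h j hj
    omega
  params_mem := params_comp F 0

theorem prog_spec {ε : ℝ} (x : ι ⊕ ℕ → ℝ) (hx : ∀ w, 0 ≤ x w ∧ x w ≤ 1) (F : AF ι)
    (h : F.prog.Sat ε x) :
    |F.prog.res x - F.val (fun i => x (Sum.inl i))| ≤ F.err * ε := by
  have h1 := comp_spec x hx F 0 (fun k o hk => by rw [Nat.zero_add]; exact h k o hk)
  have e : F.prog.res x = x (Sum.inr (0 + F.size - 1)) := by simp [Prog.res, prog]
  rw [e]; exact h1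

/-! ### All the implicants -/

variable [DecidableEq ι]

/-- The disjunction of all the implicants of `ψ`, by recursion on the list of the variables. -/
def imp : List ι → ((ι → Bool) → Bool) → AF ι
  | [], ψ => if ψ (fun _ => false) then one else zero
  | i :: l, ψ =>
    max (max (min (var i) (imp l fun b => ψ (Function.update b i true)))
      (min (neg (var i)) (imp l fun b => ψ (Function.update b i false))))
      (imp l fun b => ψ (Function.update b i true) && ψ (Function.update b i false))

theorem err_imp_pos (l : List ι) (ψ : (ι → Bool) → Bool) : 1 ≤ (imp l ψ).err := by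
  cases l with
  | nil => simp only [imp]; split <;> simp [err]
  | cons i l => simp only [imp, err]; omega

theorem err_imp (l : List ι) (ψ : (ι → Bool) → Bool) : (imp l ψ).err ≤ 6 * l.length + 3 := by
  induction l generalizing ψ with
  | nil => simp only [imp]; split <;> simp [err]
  | cons i l ih =>
    simp only [imp, err, List.length_cons]
    have h1 := ih fun b => ψ (Function.update b i true)
    have h2 := ih fun b => ψ (Function.update b i false)
    have h3 := ih fun b => ψ (Function.update b i true) && ψ (Function.update b i false)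
    omega

/-- `b` is a completion of the analog inputs `c`. -/
def Compl (s : ℝ) (c : ι → ℝ) (b : ι → Bool) : Prop :=
  ∀ i, (c i < s → b i = false) ∧ (1 - s < c i → b i = true)

/-- `ψ` depends only on the variables of the list. -/
def Dep (l : List ι) (ψ : (ι → Bool) → Bool) : Prop :=
  ∀ b b' : ι → Bool, (∀ i ∈ l, b i = b' i) → ψ b = ψ b'

theorem Dep.update {l : List ι} {ψ : (ι → Bool) → Bool} {i : ι} (h : Dep (i :: l) ψ) (v : Bool) :
    Dep l fun b => ψ (Function.update b i v) := by
  intro b b' hb
  refine h _ _ fun j hj => ?_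
  by_cases hji : j = i
  · subst hji; simp
  · rw [Function.update_of_ne hji, Function.update_of_ne hji]
    exact hb j ((List.mem_cons.1 hj).resolve_left hji)

theorem Dep.update_and {l : List ι} {ψ : (ι → Bool) → Bool} {i : ι} (h : Dep (i :: l) ψ) :
    Dep l fun b => ψ (Function.update b i true) && ψ (Function.update b i false) := by
  intro b b' hb
  have h1 := h.update true b b' hb
  have h2 := h.update false b b' hb
  simp only at h1 h2 ⊢
  rw [h1, h2]

omit [DecidableEq ι] in
theorem exists_compl {s : ℝ} (hs : s ≤ 1 / 2) (c : ι → ℝ) : ∃ b, Compl s c b := by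
  classical
  refine ⟨fun i => decide (s ≤ c i), fun i => ⟨fun h => decide_eq_false (by linarith),
    fun h => decide_eq_true (by linarith)⟩⟩

theorem Compl.update_true {s : ℝ} {c : ι → ℝ} {b : ι → Bool} (h : Compl s c b) {i : ι}
    (hi : s ≤ c i) : Compl s c (Function.update b i true) := by
  intro j
  by_cases hji : j = i
  · subst hji
    simp only [Function.update_self]
    exact ⟨fun h => absurd h (by linarith), fun _ => trivial⟩
  · rw [Function.update_of_ne hji]; exact h j

theorem Compl.update_false {s : ℝ} {c : ι → ℝ} {b : ι → Bool} (h : Compl s c b) {i : ι}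
    (hi : c i ≤ 1 - s) : Compl s c (Function.update b i false) := by
  intro j
  by_cases hji : j = i
  · subst hji
    simp only [Function.update_self]
    exact ⟨fun _ => trivial, fun h => absurd h (by linarith)⟩
  · rw [Function.update_of_ne hji]; exact h j

/-- If every completion gives `false`, then the value is less than `s`. -/
theorem val_imp_lt {s : ℝ} (hs0 : 0 < s) (hs : s ≤ 1 / 2) (c : ι → ℝ) (l : List ι)
    (ψ : (ι → Bool) → Bool) (hd : Dep l ψ) (h : ∀ b, Compl s c b → ψ b = false) :
    (imp l ψ).val c < s := by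
  induction l generalizing ψ with
  | nil =>
    obtain ⟨b, hb⟩ := exists_compl hs c
    have h1 : ψ (fun _ => false) = false := by
      rw [hd _ b (by simp)]; exact h b hb
    simp [imp, h1, val, hs0]
  | cons i l ih =>
    simp only [imp, val]
    refine max_lt (max_lt ?_ ?_) ?_
    · by_cases hi : s ≤ c i
      · exact (min_le_right _ _).trans_lt
          (ih _ (hd.update true) fun b hb => h _ (hb.update_true hi))
      · exact (min_le_left _ _).trans_lt (not_le.1 hi)
    · by_cases hi : c i ≤ 1 - s
      · exact (min_le_right _ _).trans_lt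
          (ih _ (hd.update false) fun b hb => h _ (hb.update_false hi))
      · exact (min_le_left _ _).trans_lt (by linarith [not_le.1 hi])
    · refine ih _ hd.update_and fun b hb => ?_
      by_cases hi : s ≤ c i
      · rw [h _ (hb.update_true hi), Bool.false_and]
      · rw [h _ (hb.update_false (by linarith [not_le.1 hi])), Bool.and_false]

/-- If every completion gives `true`, then the value is greater than `1 - s`. -/
theorem lt_val_imp {s : ℝ} (hs0 : 0 < s) (hs : s ≤ 1 / 2) (c : ι → ℝ) (l : List ι)
    (ψ : (ι → Bool) → Bool) (hd : Dep l ψ) (h : ∀ b, Compl s c b → ψ b = true) :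
    1 - s < (imp l ψ).val c := by
  induction l generalizing ψ with
  | nil =>
    obtain ⟨b, hb⟩ := exists_compl hs c
    have h1 : ψ (fun _ => false) = true := by
      rw [hd _ b (by simp)]; exact h b hb
    simp [imp, h1, val, hs0]
  | cons i l ih =>
    simp only [imp, val]
    by_cases h1 : c i < s
    · refine lt_max_of_lt_left (lt_max_of_lt_right (lt_min (by linarith) ?_))
      exact ih _ (hd.update false) fun b hb => h _ (hb.update_false (by linarith))
    by_cases h2 : 1 - s < c i
    · refine lt_max_of_lt_left (lt_max_of_lt_left (lt_min h2 ?_))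
      exact ih _ (hd.update true) fun b hb => h _ (hb.update_true (by linarith))
    · refine lt_max_of_lt_right (ih _ hd.update_and fun b hb => ?_)
      rw [h _ (hb.update_true (not_lt.1 h1)), h _ (hb.update_false (not_lt.1 h2))]
      rfl

omit [DecidableEq ι] in
theorem dep_of_mem {l : List ι} (hl : ∀ i, i ∈ l) (ψ : (ι → Bool) → Bool) : Dep l ψ :=
  fun _ _ h => congrArg ψ (funext fun i => h i (hl i))

end AF

/-! ### The Gödel program of a Boolean function -/

section god

variable {n : ℕ}

/-- The Gödel formula of `ψ`. -/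
def godF (ψ : (Fin n → Bool) → Bool) : AF (Fin n) := AF.imp (List.finRange n) ψ

/-- The Gödel program of `ψ`. -/
def god (ψ : (Fin n → Bool) → Bool) : Prog (Fin n) := (godF ψ).prog

theorem err_godF (ψ : (Fin n → Bool) → Bool) : (godF ψ).err ≤ 6 * n + 3 := by
  simpa [godF] using AF.err_imp (List.finRange n) ψ

/-- The analog value which is computed by the Gödel program. -/
def godV (ψ : (Fin n → Bool) → Bool) (c : Fin n → ℝ) : ℝ := (godF ψ).val c

theorem godV_lt {s : ℝ} (hs0 : 0 < s) (hs : s ≤ 1 / 2) (ψ : (Fin n → Bool) → Bool)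
    (c : Fin n → ℝ) (h : ∀ b, AF.Compl s c b → ψ b = false) : godV ψ c < s :=
  AF.val_imp_lt hs0 hs c _ ψ (AF.dep_of_mem (fun i => List.mem_finRange i) ψ) h

theorem lt_godV {s : ℝ} (hs0 : 0 < s) (hs : s ≤ 1 / 2) (ψ : (Fin n → Bool) → Bool)
    (c : Fin n → ℝ) (h : ∀ b, AF.Compl s c b → ψ b = true) : 1 - s < godV ψ c :=
  AF.lt_val_imp hs0 hs c _ ψ (AF.dep_of_mem (fun i => List.mem_finRange i) ψ) h

/-- The Gödel program computes `godV`, up to `(6 n + 3) ε`. -/
theorem god_val {ε : ℝ} (hε : 0 ≤ ε) (ψ : (Fin n → Bool) → Bool) (x : Fin n ⊕ ℕ → ℝ)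
    (hx : ∀ w, 0 ≤ x w ∧ x w ≤ 1) (h : (god ψ).Sat ε x) :
    |(god ψ).res x - godV ψ (fun i => x (Sum.inl i))| ≤ (6 * n + 3) * ε := by
  refine (AF.prog_spec x hx _ h).trans (mul_le_mul_of_nonneg_right ?_ hε)
  exact_mod_cast err_godF ψ

/-- **GOD**, lower reading. -/
theorem god_lt {ε s : ℝ} (hε : 0 ≤ ε) (hs0 : 0 < s) (hs : s ≤ 1 / 2)
    (ψ : (Fin n → Bool) → Bool) (x : Fin n ⊕ ℕ → ℝ) (hx : ∀ w, 0 ≤ x w ∧ x w ≤ 1)
    (h : (god ψ).Sat ε x) (hb : ∀ b, AF.Compl s (fun i => x (Sum.inl i)) b → ψ b = false) :
    (god ψ).res x < s + (6 * n + 3) * ε := by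
  have h1 := god_val hε ψ x hx h
  have h2 := godV_lt hs0 hs ψ _ hb
  rw [abs_le] at h1
  linarith [h1.2]

/-- **GOD**, upper reading. -/
theorem lt_god {ε s : ℝ} (hε : 0 ≤ ε) (hs0 : 0 < s) (hs : s ≤ 1 / 2)
    (ψ : (Fin n → Bool) → Bool) (x : Fin n ⊕ ℕ → ℝ) (hx : ∀ w, 0 ≤ x w ∧ x w ≤ 1)
    (h : (god ψ).Sat ε x) (hb : ∀ b, AF.Compl s (fun i => x (Sum.inl i)) b → ψ b = true) :
    1 - s - (6 * n + 3) * ε < (god ψ).res x := by
  have h1 := god_val hε ψ x hx h
  have h2 := lt_godV hs0 hs ψ _ hb
  rw [abs_le] at h1
  linarith [h1.1]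

end god

end Vale.Agent.P330.L
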