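import Vale.Agent.Lib.PCP.AR.Blr

/-!
# The low-degree test with a uniform direction

`V` is a finite module over `ZMod q`, `q` prime, `f : V → ZMod q`.  The check at `(p, v)` says that
the `(d+1)`-st finite difference of `f` in the direction `v` vanishes at `p`.  If most checks pass
then `f` is close to a function `g` all of whose checks pass, and the correction read from a random
direction at ANY point gives `g` with high probability.
-/

namespace Vale.Agent.P330.RS

open Finset PCP.AR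

/-- the coefficients of the check -/
def cf (q d t : ℕ) : ZMod q := (-1) ^ t * (Nat.choose (d + 1) t : ZMod q)

theorem cf_zero (q d : ℕ) : cf q d 0 = 1 := by simp [cf]

section defs

variable {q : ℕ} {V : Type*} [AddCommGroup V] [Module (ZMod q) V]

/-- the value of the check (finite difference) of `f` at `p` in the direction `v` -/
def dif (d : ℕ) (f : V → ZMod q) (p v : V) : ZMod q :=
  ∑ t ∈ range (d + 2), cf q d t * f (p + (t : ZMod q) • v)

/-- the check passes -/
def Chk (d : ℕ) (f : V → ZMod q) (p v : V) : Prop :=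
  ∑ t ∈ range (d + 2), cf q d t * f (p + (t : ZMod q) • v) = 0

/-- the correction of `f` at `p`, read in the direction `v` -/
def cor (d : ℕ) (f : V → ZMod q) (p v : V) : ZMod q :=
  -∑ t ∈ range (d + 1), cf q d (t + 1) * f (p + ((t + 1 : ℕ) : ZMod q) • v)

theorem dif_eq (d : ℕ) (f : V → ZMod q) (p v : V) : dif d f p v = f p - cor d f p v := by
  unfold dif cor
  rw [sum_range_succ' (fun t => cf q d t * f (p + (t : ZMod q) • v)) (d + 1)]
  simp [cf_zero]
  ring

theorem chk_iff_dif (d : ℕ) (f : V → ZMod q) (p v : V) : Chk d f p v ↔ dif d f p v = 0 := Iff.rfl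

theorem chk_iff (d : ℕ) (f : V → ZMod q) (p v : V) : Chk d f p v ↔ cor d f p v = f p := by
  rw [chk_iff_dif, dif_eq, sub_eq_zero, eq_comm]

end defs

section pr

variable {Ω Ω' : Type*} [Fintype Ω] [Fintype Ω']

theorem pr_exists_le {ι : Type*} (s : Finset ι) (P : ι → Ω → Prop) (c : ι → ℝ)
    (h : ∀ i ∈ s, pr (P i) ≤ c i) : pr (fun ω => ∃ i ∈ s, P i ω) ≤ ∑ i ∈ s, c i := by
  classical
  induction s using Finset.induction_on with
  | empty => simp [pr_false]
  | insert a s ha ih =>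
    rw [sum_insert ha]
    have h1 := ih fun i hi => h i (mem_insert_of_mem hi)
    have h2 := h a (mem_insert_self _ _)
    refine le_trans ?_ (add_le_add h2 h1)
    refine (pr_mono ?_).trans (pr_or _ _)
    rintro ω ⟨i, hi, hP⟩
    rcases mem_insert.1 hi with rfl | hi
    · exact Or.inl hP
    · exact Or.inr ⟨i, hi, hP⟩

/-- some section is at most the average -/
theorem exists_pr_section_le [Nonempty Ω] (p : Ω × Ω' → Prop) :
    ∃ x, pr (fun y : Ω' => p (x, y)) ≤ pr p := by
  by_contra hc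
  push Not at hc
  rw [pr_prod] at hc
  have h : ∑ x : Ω, pr (fun y : Ω' => p (x, y)) >
      ∑ _x : Ω, (∑ x : Ω, pr (fun y : Ω' => p (x, y))) / Fintype.card Ω :=
    sum_lt_sum_of_nonempty univ_nonempty fun i _ => hc i
  rw [sum_const, card_univ, nsmul_eq_mul,
    mul_div_cancel₀ _ (by positivity : (Fintype.card Ω : ℝ) ≠ 0)] at h
  exact lt_irrefl _ h

end pr

section RS

variable {q : ℕ} [Fact q.Prime] {V : Type*} [AddCommGroup V] [Module (ZMod q) V] [Fintype V]

/-- scaling by a nonzero scalar, as an equivalence -/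
noncomputable def smulE (a : ZMod q) (ha : a ≠ 0) : V ≃ V where
  toFun v := a • v
  invFun v := a⁻¹ • v
  left_inv v := by simp [smul_smul, inv_mul_cancel₀ ha]
  right_inv v := by simp [smul_smul, mul_inv_cancel₀ ha]

omit [Fintype V] in
theorem smulE_apply (a : ZMod q) (ha : a ≠ 0) (v : V) : smulE a ha v = a • v := rfl

theorem pr_smul (a : ZMod q) (ha : a ≠ 0) (P : V → Prop) : pr (fun v => P (a • v)) = pr P :=
  pr_equiv (smulE a ha) P

theorem natCast_ne_zero_of_lt {t : ℕ} (h0 : 0 < t) (h : t < q) : (t : ZMod q) ≠ 0 := by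
  intro hc
  rw [ZMod.natCast_eq_zero_iff] at hc
  exact absurd (Nat.le_of_dvd h0 hc) (by omega)

/-- `(p + a • v, w)` is uniform if `(v, w)` is and `a ≠ 0` -/
theorem pr_line_left (a : ZMod q) (ha : a ≠ 0) (p : V) (P : V → V → Prop) :
    pr (fun s : V × V => P (p + a • s.1) s.2) = pr (fun s : V × V => P s.1 s.2) :=
  pr_equiv (((smulE a ha).trans (Equiv.addLeft p)).prodCongr (Equiv.refl V))
    (fun s : V × V => P s.1 s.2)

theorem pr_line_right (a : ZMod q) (ha : a ≠ 0) (p : V) (P : V → V → Prop) :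
    pr (fun s : V × V => P (p + a • s.2) s.1) = pr (fun s : V × V => P s.1 s.2) := by
  rw [← pr_line_left a ha p P]
  exact pr_equiv (Equiv.prodComm V V) (fun s : V × V => P (p + a • s.1) s.2)

theorem pr_line_both (a b : ZMod q) (ha : a ≠ 0) (hb : b ≠ 0) (p w : V) (P : V → V → Prop) :
    pr (fun s : V × V => P (p + a • s.1) (w + b • s.2)) = pr (fun s : V × V => P s.1 s.2) :=
  pr_equiv (((smulE a ha).trans (Equiv.addLeft p)).prodCongr ((smulE b hb).trans (Equiv.addLeft w)))
    (fun s : V × V => P s.1 s.2)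

/-- two corrections at the same point seldom differ -/
theorem cor_collision {d : ℕ} (hd : d + 2 ≤ q) (f : V → ZMod q) (τ : ℝ)
    (hτ : pr (fun s : V × V => ¬ Chk d f s.1 s.2) ≤ τ) (p : V) :
    pr (fun s : V × V => cor d f p s.1 ≠ cor d f p s.2) ≤ 2 * (d + 1) * τ := by
  classical
  have hc : ∀ t ∈ range (d + 1), ((t + 1 : ℕ) : ZMod q) ≠ 0 := by
    intro t ht
    rw [mem_range] at ht
    exact natCast_ne_zero_of_lt (by omega) (by omega)
  have h1 : pr (fun s : V × V => ∃ t ∈ range (d + 1),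
      ¬ Chk d f (p + ((t + 1 : ℕ) : ZMod q) • s.1) s.2) ≤ ∑ _t ∈ range (d + 1), τ := by
    apply pr_exists_le (range (d + 1))
      (fun t (s : V × V) => ¬ Chk d f (p + ((t + 1 : ℕ) : ZMod q) • s.1) s.2)
    intro t ht
    exact (pr_line_left _ (hc t ht) p (fun x y => ¬ Chk d f x y)).le.trans hτ
  have h2 : pr (fun s : V × V => ∃ t ∈ range (d + 1),
      ¬ Chk d f (p + ((t + 1 : ℕ) : ZMod q) • s.2) s.1) ≤ ∑ _t ∈ range (d + 1), τ := by
    apply pr_exists_le (range (d + 1))
      (fun t (s : V × V) => ¬ Chk d f (p + ((t + 1 : ℕ) : ZMod q) • s.2) s.1)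
    intro t ht
    exact (pr_line_right _ (hc t ht) p (fun x y => ¬ Chk d f x y)).le.trans hτ
  have h3 : 2 * ((d : ℝ) + 1) * τ = ∑ _t ∈ range (d + 1), τ + ∑ _t ∈ range (d + 1), τ := by
    simp
    ring
  rw [h3]
  refine le_trans ?_ (add_le_add h1 h2)
  refine (pr_mono ?_).trans (pr_or _ _)
  intro s hs
  by_contra hcon
  push Not at hcon
  obtain ⟨e1, e2⟩ := hcon
  apply hs
  have e1' : ∀ t ∈ range (d + 1), f (p + ((t + 1 : ℕ) : ZMod q) • s.1) =
      cor d f (p + ((t + 1 : ℕ) : ZMod q) • s.1) s.2 := fun t ht =>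
    ((chk_iff _ _ _ _).1 (e1 t ht)).symm
  have e2' : ∀ t ∈ range (d + 1), f (p + ((t + 1 : ℕ) : ZMod q) • s.2) =
      cor d f (p + ((t + 1 : ℕ) : ZMod q) • s.2) s.1 := fun t ht =>
    ((chk_iff _ _ _ _).1 (e2 t ht)).symm
  have f1 : cor d f p s.1 = -∑ t ∈ range (d + 1),
      cf q d (t + 1) * cor d f (p + ((t + 1 : ℕ) : ZMod q) • s.1) s.2 := by
    unfold cor
    rw [neg_inj]
    exact sum_congr rfl fun t ht => by rw [e1' t ht, cor]
  have f2 : cor d f p s.2 = -∑ t ∈ range (d + 1),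
      cf q d (t + 1) * cor d f (p + ((t + 1 : ℕ) : ZMod q) • s.2) s.1 := by
    unfold cor
    rw [neg_inj]
    exact sum_congr rfl fun t ht => by rw [e2' t ht, cor]
  rw [f1, f2]
  unfold cor
  simp only [mul_neg, sum_neg_distrib, mul_sum, neg_neg]
  rw [sum_comm]
  apply sum_congr rfl
  intro i _
  apply sum_congr rfl
  intro j _
  have : p + ((j + 1 : ℕ) : ZMod q) • s.1 + ((i + 1 : ℕ) : ZMod q) • s.2 =
      p + ((i + 1 : ℕ) : ZMod q) • s.2 + ((j + 1 : ℕ) : ZMod q) • s.1 := by abel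
  rw [this]
  ring

/-- **Low-degree test with a uniform direction** (Rubinfeld and Sudan). -/
theorem rs {d : ℕ} (hd : d + 2 ≤ q) (f : V → ZMod q) (τ : ℝ)
    (hτ : pr (fun s : V × V => ¬ Chk d f s.1 s.2) ≤ τ) (h8 : 8 * ((d : ℝ) + 2) ^ 2 * τ ≤ 1) :
    ∃ g : V → ZMod q, (∀ p v, Chk d g p v) ∧ pr (fun p => f p ≠ g p) ≤ 2 * τ ∧
      ∀ p, pr (fun v => cor d f p v ≠ g p) ≤ 2 * (d + 1) * τ := by
  classical
  have hτ0 : 0 ≤ τ := (pr_nonneg _).trans hτ
  have hd0 : (0 : ℝ) ≤ d := Nat.cast_nonneg d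
  have hex : ∀ p : V, ∃ h : V, pr (fun v => cor d f p h ≠ cor d f p v) ≤ 2 * (d + 1) * τ := by
    intro p
    obtain ⟨h, hh⟩ := exists_pr_section_le (fun s : V × V => cor d f p s.1 ≠ cor d f p s.2)
    exact ⟨h, hh.trans (cor_collision hd f τ hτ p)⟩
  choose h hh using hex
  set g : V → ZMod q := fun p => cor d f p (h p) with hg
  have hcor : ∀ p, pr (fun v => cor d f p v ≠ g p) ≤ 2 * (d + 1) * τ := by
    intro p
    refine le_trans (pr_mono ?_) (hh p)
    intro v hv hc
    exact hv hc.symm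
  refine ⟨g, ?_, ?_, hcor⟩
  · intro p v
    -- the bad events
    have b1 : pr (fun s : V × V => ∃ i ∈ range (d + 2),
        cor d f (p + (i : ZMod q) • v) (s.1 + (i : ZMod q) • s.2) ≠ g (p + (i : ZMod q) • v)) ≤
        ∑ _i ∈ range (d + 2), 2 * ((d : ℝ) + 1) * τ := by
      apply pr_exists_le (range (d + 2)) (fun i (s : V × V) =>
        cor d f (p + (i : ZMod q) • v) (s.1 + (i : ZMod q) • s.2) ≠ g (p + (i : ZMod q) • v))
      intro i _
      have e := pr_equiv (Equiv.prodComm V V) (fun s : V × V =>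
        cor d f (p + (i : ZMod q) • v) (s.1 + (i : ZMod q) • s.2) ≠ g (p + (i : ZMod q) • v))
      rw [← e]
      apply pr_prod_le
      intro x
      have e2 := pr_translate ((i : ZMod q) • x)
        (fun y => cor d f (p + (i : ZMod q) • v) y ≠ g (p + (i : ZMod q) • v))
      refine le_trans (le_of_eq ?_) (e2.le.trans (hcor _))
      apply pr_congr
      intro y
      simp [add_comm]
    have b2 : pr (fun s : V × V => ∃ j ∈ range (d + 1),
        ¬ Chk d f (p + ((j + 1 : ℕ) : ZMod q) • s.1) (v + ((j + 1 : ℕ) : ZMod q) • s.2)) ≤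
        ∑ _j ∈ range (d + 1), τ := by
      apply pr_exists_le (range (d + 1)) (fun j (s : V × V) =>
        ¬ Chk d f (p + ((j + 1 : ℕ) : ZMod q) • s.1) (v + ((j + 1 : ℕ) : ZMod q) • s.2))
      intro j hj
      rw [mem_range] at hj
      have hj0 : ((j + 1 : ℕ) : ZMod q) ≠ 0 := natCast_ne_zero_of_lt (by omega) (by omega)
      exact (pr_line_both _ _ hj0 hj0 p v (fun x y => ¬ Chk d f x y)).le.trans hτ
    have hlt : pr (fun s : V × V => (∃ i ∈ range (d + 2),
        cor d f (p + (i : ZMod q) • v) (s.1 + (i : ZMod q) • s.2) ≠ g (p + (i : ZMod q) • v)) ∨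
        ∃ j ∈ range (d + 1),
        ¬ Chk d f (p + ((j + 1 : ℕ) : ZMod q) • s.1) (v + ((j + 1 : ℕ) : ZMod q) • s.2)) < 1 := by
      refine (pr_or _ _).trans_lt ((add_le_add b1 b2).trans_lt ?_)
      simp only [sum_const, card_range, nsmul_eq_mul, Nat.cast_add, Nat.cast_ofNat, Nat.cast_one]
      nlinarith [mul_nonneg hd0 hτ0, mul_nonneg (mul_nonneg hd0 hd0) hτ0]
    obtain ⟨s, hs⟩ := exists_of_pr_lt_one hlt
    push Not at hs
    obtain ⟨e1, e2⟩ := hs
    unfold Chk
    rw [sum_congr rfl fun i hi => by rw [← e1 i hi]]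
    unfold cor
    simp only [mul_neg, sum_neg_distrib, mul_sum]
    rw [neg_eq_zero, sum_comm]
    apply sum_eq_zero
    intro j hj
    have e3 := e2 j hj
    unfold Chk at e3
    have : ∀ i ∈ range (d + 2), cf q d i * (cf q d (j + 1) *
        f (p + (i : ZMod q) • v + ((j + 1 : ℕ) : ZMod q) • (s.1 + (i : ZMod q) • s.2))) =
        cf q d (j + 1) * (cf q d i * f (p + ((j + 1 : ℕ) : ZMod q) • s.1 +
          (i : ZMod q) • (v + ((j + 1 : ℕ) : ZMod q) • s.2))) := by
      intro i _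
      have : p + (i : ZMod q) • v + ((j + 1 : ℕ) : ZMod q) • (s.1 + (i : ZMod q) • s.2) =
          p + ((j + 1 : ℕ) : ZMod q) • s.1 + (i : ZMod q) • (v + ((j + 1 : ℕ) : ZMod q) • s.2) := by
        module
      rw [this]
      ring
    rw [sum_congr rfl this, ← mul_sum, e3, mul_zero]
  · have h4 : pr (fun p => f p ≠ g p) * (1 - 2 * (d + 1) * τ) ≤ τ := by
      refine (mul_le_pr_prod (fun p => f p ≠ g p)
        (fun s : V × V => ¬ Chk d f s.1 s.2) (1 - 2 * (d + 1) * τ) ?_).trans hτ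
      intro p hp
      have h5 : 1 - 2 * ((d : ℝ) + 1) * τ ≤ pr (fun v => ¬ (cor d f p v ≠ g p)) := by
        rw [pr_not]
        have := hcor p
        linarith
      refine h5.trans (pr_mono ?_)
      intro v hv hc
      push Not at hv
      apply hp
      rw [← hv]
      exact ((chk_iff _ _ _ _).1 hc).symm
    have n0 := pr_nonneg (fun p => f p ≠ g p)
    have n1 : 2 * ((d : ℝ) + 1) * τ ≤ 1 / 2 := by
      nlinarith [mul_nonneg hd0 hτ0, mul_nonneg (mul_nonneg hd0 hd0) hτ0]
    nlinarith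

end RS

end Vale.Agent.P330.RS
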