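import Mathlib.Algebra.Group.ForwardDiff
import Mathlib.LinearAlgebra.Lagrange
import Vale.Agent.P330.L.RS

/-!
# Functions of degree at most `d` on all lines

`LD d g`: the restriction of `g : V → ZMod q` to every line is a polynomial of degree at most `d`.
For `d + 1 < q` this is equivalent to all checks of `RS.lean`.  Closure properties, and the
Schwartz-Zippel bound by lines through a point.
-/

namespace Vale.Agent.P330.RS

open Finset PCP.AR Polynomial

section basic

variable {q : ℕ} [Fact q.Prime] {V : Type*} [AddCommGroup V] [Module (ZMod q) V]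

/-- degree at most `d` on all lines -/
def LD (d : ℕ) (g : V → ZMod q) : Prop :=
  ∀ p v : V, ∃ P : (ZMod q)[X], P.natDegree ≤ d ∧ ∀ t : ZMod q, g (p + t • v) = P.eval t

theorem LD.mono {d e : ℕ} {g : V → ZMod q} (h : LD d g) (hde : d ≤ e) : LD e g := by
  intro p v
  obtain ⟨P, h1, h2⟩ := h p v
  exact ⟨P, h1.trans hde, h2⟩

theorem sum_cf_eval {d : ℕ} (P : (ZMod q)[X]) (hP : P.natDegree ≤ d) :
    ∑ t ∈ range (d + 2), cf q d t * P.eval (t : ZMod q) = 0 := by
  have h1 := congrFun (Polynomial.fwdDiff_iter_eq_zero_of_degree_lt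
    (n := d + 1) (Nat.lt_succ_of_le hP)) (0 : ZMod q)
  rw [fwdDiff_iter_eq_sum_shift] at h1
  have h2 : ∑ t ∈ range (d + 2), cf q d t * P.eval (t : ZMod q) =
      (-1) ^ (d + 1) * ∑ k ∈ range (d + 1 + 1),
        ((-1 : ℤ) ^ (d + 1 - k) * ((d + 1).choose k : ℤ)) • P.eval (0 + k • (1 : ZMod q)) := by
    rw [mul_sum]
    apply sum_congr rfl
    intro t ht
    rw [mem_range] at ht
    have e1 : (0 : ZMod q) + t • (1 : ZMod q) = (t : ZMod q) := by simp
    rw [e1, zsmul_eq_mul]
    push_cast
    have e2 : ((-1 : ZMod q)) ^ (d + 1) * (-1) ^ (d + 1 - t) = (-1) ^ t := by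
      have e3 : d + 1 = (d + 1 - t) + t := by omega
      calc ((-1 : ZMod q)) ^ (d + 1) * (-1) ^ (d + 1 - t)
          = (-1) ^ ((d + 1 - t) + t) * (-1) ^ (d + 1 - t) := by rw [← e3]
        _ = ((-1) ^ (d + 1 - t) * (-1) ^ (d + 1 - t)) * (-1) ^ t := by rw [pow_add]; ring
        _ = (-1) ^ t := by rw [← mul_pow]; simp
    unfold cf
    rw [← mul_assoc, ← mul_assoc, e2]
  rw [h2, h1]
  simp

theorem LD.chk {d : ℕ} {g : V → ZMod q} (h : LD d g) (p v : V) : Chk d g p v := by
  obtain ⟨P, h1, h2⟩ := h p v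
  unfold Chk
  rw [sum_congr rfl fun t _ => by rw [h2 (t : ZMod q)]]
  exact sum_cf_eval P h1

theorem LD.cor_eq {d : ℕ} {g : V → ZMod q} (h : LD d g) (p v : V) : cor d g p v = g p :=
  (chk_iff _ _ _ _).1 (h.chk p v)

theorem natCast_inj_of_lt {s t : ℕ} (hs : s < q) (ht : t < q) (h : (s : ZMod q) = (t : ZMod q)) :
    s = t := by
  have := congrArg ZMod.val h
  rwa [ZMod.val_cast_of_lt hs, ZMod.val_cast_of_lt ht] at this

/-- a function of one variable whose `(d+1)`-st differences vanish is a polynomial of degree at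
most `d` -/
theorem exists_poly_of_dif {d : ℕ} (hd : d + 1 < q) (h : ZMod q → ZMod q)
    (hh : ∀ a : ZMod q, ∑ t ∈ range (d + 2), cf q d t * h (a + (t : ZMod q)) = 0) :
    ∃ P : (ZMod q)[X], P.natDegree ≤ d ∧ ∀ t, h t = P.eval t := by
  classical
  set P : (ZMod q)[X] := Lagrange.interpolate (range (d + 1)) (fun k : ℕ => (k : ZMod q))
    (fun k : ℕ => h k) with hP
  have hinj : Set.InjOn (fun k : ℕ => (k : ZMod q)) (range (d + 1) : Set ℕ) := by
    intro a ha b hb hab
    simp only [coe_range, Set.mem_Iio] at ha hb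
    exact natCast_inj_of_lt (by omega) (by omega) hab
  have hdeg : P.natDegree ≤ d := by
    have h1 := Lagrange.degree_interpolate_lt (fun k : ℕ => h k) hinj
    rw [card_range] at h1
    by_cases h0 : P = 0
    · rw [h0]; simp
    · have := (Polynomial.natDegree_lt_iff_degree_lt h0).2 h1
      omega
  have hnode : ∀ k < d + 1, P.eval (k : ZMod q) = h k := by
    intro k hk
    exact Lagrange.eval_interpolate_at_node (fun k : ℕ => h k) hinj (mem_range.2 hk)
  have hPd : ∀ a : ZMod q, ∑ t ∈ range (d + 2), cf q d t * P.eval (a + (t : ZMod q)) = 0 := by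
    intro a
    have h1 : (P.comp (X + C a)).natDegree ≤ d := by
      rw [natDegree_comp, natDegree_X_add_C, mul_one]
      exact hdeg
    have h2 := sum_cf_eval (P.comp (X + C a)) h1
    rw [← h2]
    apply sum_congr rfl
    intro t _
    rw [eval_comp]
    simp [add_comm]
  have hcf : cf q d (d + 1) ≠ 0 := by
    unfold cf
    simp
  have key : ∀ k : ℕ, h (k : ZMod q) = P.eval (k : ZMod q) := by
    intro k
    induction k using Nat.strong_induction_on with
    | _ k ih =>
      by_cases hk : k < d + 1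
      · exact (hnode k hk).symm
      · have e1 := hh ((k - (d + 1) : ℕ) : ZMod q)
        have e2 := hPd ((k - (d + 1) : ℕ) : ZMod q)
        have e3 : ∀ t ∈ range (d + 1), cf q d t * h (((k - (d + 1) : ℕ) : ZMod q) + (t : ZMod q)) =
            cf q d t * P.eval (((k - (d + 1) : ℕ) : ZMod q) + (t : ZMod q)) := by
          intro t ht
          rw [mem_range] at ht
          rw [← Nat.cast_add, ih (k - (d + 1) + t) (by omega)]
        rw [sum_range_succ, sum_congr rfl e3] at e1
        rw [sum_range_succ] at e2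
        have e4 : cf q d (d + 1) * h (((k - (d + 1) : ℕ) : ZMod q) + ((d + 1 : ℕ) : ZMod q)) =
            cf q d (d + 1) * P.eval (((k - (d + 1) : ℕ) : ZMod q) + ((d + 1 : ℕ) : ZMod q)) := by
          linear_combination e1 - e2
        have e5 := mul_left_cancel₀ hcf e4
        have e6 : k - (d + 1) + (d + 1) = k := by omega
        rw [← Nat.cast_add, e6] at e5
        exact e5
  refine ⟨P, hdeg, fun t => ?_⟩
  have := key t.val
  rwa [ZMod.natCast_zmod_val] at this

theorem LD_of_chk {d : ℕ} (hd : d + 1 < q) {g : V → ZMod q} (h : ∀ p v, Chk d g p v) : LD d g := by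
  intro p v
  apply exists_poly_of_dif hd (fun t => g (p + t • v))
  intro a
  have := h (p + a • v) v
  unfold Chk at this
  rw [← this]
  apply sum_congr rfl
  intro t _
  have e : p + (a + (t : ZMod q)) • v = p + a • v + (t : ZMod q) • v := by module
  rw [e]

theorem LD_iff {d : ℕ} (hd : d + 1 < q) {g : V → ZMod q} : LD d g ↔ ∀ p v, Chk d g p v :=
  ⟨fun h => h.chk, LD_of_chk hd⟩

end basic

section closure

variable {q : ℕ} [Fact q.Prime] {V W : Type*} [AddCommGroup V] [Module (ZMod q) V]
  [AddCommGroup W] [Module (ZMod q) W]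

theorem LD.const (d : ℕ) (a : ZMod q) : LD d (fun _ : V => a) := fun _ _ =>
  ⟨C a, by simp, fun t => by simp⟩

theorem LD.add {d : ℕ} {f g : V → ZMod q} (hf : LD d f) (hg : LD d g) :
    LD d (fun p => f p + g p) := by
  intro p v
  obtain ⟨P, h1, h2⟩ := hf p v
  obtain ⟨Q, h3, h4⟩ := hg p v
  refine ⟨P + Q, ?_, fun t => by simp only [h2, h4, eval_add]⟩
  exact (natDegree_add_le _ _).trans (max_le h1 h3)

theorem LD.neg {d : ℕ} {f : V → ZMod q} (hf : LD d f) : LD d (fun p => -f p) := by
  intro p v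
  obtain ⟨P, h1, h2⟩ := hf p v
  exact ⟨-P, by rw [natDegree_neg]; exact h1, fun t => by simp only [h2, eval_neg]⟩

theorem LD.sub {d : ℕ} {f g : V → ZMod q} (hf : LD d f) (hg : LD d g) :
    LD d (fun p => f p - g p) := by
  simpa only [sub_eq_add_neg] using hf.add hg.neg

theorem LD.mul {d e : ℕ} {f g : V → ZMod q} (hf : LD d f) (hg : LD e g) :
    LD (d + e) (fun p => f p * g p) := by
  intro p v
  obtain ⟨P, h1, h2⟩ := hf p v
  obtain ⟨Q, h3, h4⟩ := hg p v
  refine ⟨P * Q, ?_, fun t => by simp only [h2, h4, eval_mul]⟩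
  exact natDegree_mul_le.trans (add_le_add h1 h3)

theorem LD.const_mul {d : ℕ} (a : ZMod q) {f : V → ZMod q} (hf : LD d f) :
    LD d (fun p => a * f p) := by
  have := (LD.const (V := V) 0 a).mul hf
  rwa [zero_add] at this

theorem LD.mul_const {d : ℕ} (a : ZMod q) {f : V → ZMod q} (hf : LD d f) :
    LD d (fun p => f p * a) := by
  simpa only [mul_comm] using hf.const_mul a

theorem LD.sum {ι : Type*} {d : ℕ} (s : Finset ι) {f : ι → V → ZMod q}
    (hf : ∀ i ∈ s, LD d (f i)) : LD d (fun p => ∑ i ∈ s, f i p) := by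
  classical
  induction s using Finset.induction_on with
  | empty => simpa using LD.const (V := V) d (0 : ZMod q)
  | insert a s ha ih =>
    simp only [sum_insert ha]
    exact (hf a (mem_insert_self _ _)).add (ih fun i hi => hf i (mem_insert_of_mem hi))

theorem LD.prod {ι : Type*} (s : Finset ι) {d : ι → ℕ} {f : ι → V → ZMod q}
    (hf : ∀ i ∈ s, LD (d i) (f i)) : LD (∑ i ∈ s, d i) (fun p => ∏ i ∈ s, f i p) := by
  classical
  induction s using Finset.induction_on with
  | empty => simpa using LD.const (V := V) 0 (1 : ZMod q)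
  | insert a s ha ih =>
    simp only [prod_insert ha, sum_insert ha]
    exact (hf a (mem_insert_self _ _)).mul (ih fun i hi => hf i (mem_insert_of_mem hi))

theorem LD.pow {d : ℕ} {f : V → ZMod q} (hf : LD d f) (n : ℕ) : LD (n * d) (fun p => f p ^ n) := by
  have := LD.prod (range n) (d := fun _ => d) (f := fun _ => f) fun _ _ => hf
  simpa using this

/-- composition with a map that is affine on all lines -/
theorem LD.comp {d : ℕ} {g : W → ZMod q} (hg : LD d g) (A : V → W) (B : V → W)
    (hA : ∀ p v (t : ZMod q), A (p + t • v) = A p + t • B v) : LD d (fun p => g (A p)) := by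
  intro p v
  obtain ⟨P, h1, h2⟩ := hg (A p) (B v)
  exact ⟨P, h1, fun t => by simp only [hA, h2]⟩

theorem LD.comp_linear {d : ℕ} {g : W → ZMod q} (hg : LD d g) (A : V →ₗ[ZMod q] W) :
    LD d (fun p => g (A p)) :=
  hg.comp A A fun p v t => by simp

theorem LD.translate {d : ℕ} {g : V → ZMod q} (hg : LD d g) (a : V) :
    LD d (fun p => g (p + a)) :=
  hg.comp (fun p => p + a) (fun v => v) fun p v t => by abel

/-- a function that is affine on all lines has degree one -/
theorem LD.affine {f : V → ZMod q} (B : V → ZMod q)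
    (hf : ∀ p v (t : ZMod q), f (p + t • v) = f p + t * B v) : LD 1 f := by
  intro p v
  refine ⟨C (f p) + C (B v) * X, ?_, fun t => ?_⟩
  · refine (natDegree_add_le _ _).trans (max_le (by simp) ?_)
    exact (natDegree_C_mul_le _ _).trans natDegree_X_le
  · rw [hf]
    simp
    ring

theorem LD.coord {ι : Type*} (i : ι) : LD 1 (fun p : ι → ZMod q => p i) :=
  LD.affine (fun v => v i) fun p v t => by simp

/-- fixing one coordinate -/
theorem LD.update {ι : Type*} [DecidableEq ι] {d : ℕ} {g : (ι → ZMod q) → ZMod q} (hg : LD d g)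
    (k : ι) (a : ZMod q) : LD d (fun p => g (Function.update p k a)) := by
  refine hg.comp (fun p => Function.update p k a) (fun v => Function.update v k 0) ?_
  intro p v t
  funext i
  by_cases hi : i = k
  · subst hi; simp
  · simp [Function.update_of_ne hi]

/-- replacing one coordinate by a function that is affine on all lines -/
theorem LD.update_affine {ι : Type*} [DecidableEq ι] {d : ℕ} {g : (ι → ZMod q) → ZMod q}
    (hg : LD d g) (k : ι) (a b : (ι → ZMod q) → ZMod q)
    (ha : ∀ p v (t : ZMod q), a (p + t • v) = a p + t * b v) :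
    LD d (fun p => g (Function.update p k (a p))) := by
  refine hg.comp (fun p => Function.update p k (a p)) (fun v => Function.update v k (b v)) ?_
  intro p v t
  funext i
  by_cases hi : i = k
  · subst hi; simp [ha]
  · simp [Function.update_of_ne hi]

/-- composition with a polynomial in one variable -/
theorem LD.eval {d e : ℕ} {g : V → ZMod q} (hg : LD d g) (F : (ZMod q)[X]) (hF : F.natDegree ≤ e) :
    LD (e * d) (fun p => F.eval (g p)) := by
  intro p v
  obtain ⟨P, h1, h2⟩ := hg p v
  refine ⟨F.comp P, ?_, fun t => by simp only [h2, eval_comp]⟩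
  exact natDegree_comp_le.trans (Nat.mul_le_mul hF h1)

/-- composition with a polynomial in several variables -/
theorem LD.mvEval {σ : Type*} {d e : ℕ} {g : σ → V → ZMod q} (hg : ∀ i, LD d (g i))
    (F : MvPolynomial σ (ZMod q)) (hF : F.totalDegree ≤ e) :
    LD (e * d) (fun p => MvPolynomial.eval (fun i => g i p) F) := by
  classical
  have : ∀ p, MvPolynomial.eval (fun i => g i p) F =
      ∑ s ∈ F.support, F.coeff s * ∏ i ∈ s.support, g i p ^ s i := fun p =>
    MvPolynomial.eval_eq _ _
  simp only [this]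
  apply LD.sum
  intro s hs
  apply LD.const_mul
  have h1 := LD.prod s.support (d := fun i => s i * d) (f := fun i p => g i p ^ s i)
    fun i _ => (hg i).pow (s i)
  refine h1.mono ?_
  rw [← sum_mul]
  apply Nat.mul_le_mul_right
  exact (MvPolynomial.le_totalDegree hs).trans hF

end closure

section SZ

variable {q : ℕ} [Fact q.Prime] {V : Type*} [AddCommGroup V] [Module (ZMod q) V] [Fintype V]

/-- **Schwartz-Zippel, by lines through a point.** -/
theorem LD.pr_zero_mul_le {d : ℕ} {g : V → ZMod q} (hg : LD d g) (hne : ∃ p, g p ≠ 0) :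
    ((q : ℝ) - 1) * pr (fun p => g p = 0) ≤ d := by
  classical
  obtain ⟨p₀, hp₀⟩ := hne
  have hq : 1 ≤ q := (Fact.out : q.Prime).one_le
  -- the number of zeros on a line through `p₀`
  have hline : ∀ v : V, ((univ.filter fun a : ZMod q => a ≠ 0 ∧ g (p₀ + a • v) = 0).card : ℝ) ≤
      d := by
    intro v
    obtain ⟨P, h1, h2⟩ := hg p₀ v
    have hP : P ≠ 0 := by
      intro h0
      apply hp₀
      have := h2 0
      rw [h0] at this
      simpa using this
    have hsub : (univ.filter fun a : ZMod q => a ≠ 0 ∧ g (p₀ + a • v) = 0) ⊆ P.roots.toFinset := by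
      intro a ha
      rw [mem_filter] at ha
      rw [Multiset.mem_toFinset, mem_roots hP, IsRoot, ← h2]
      exact ha.2.2
    have := (card_le_card hsub).trans ((Multiset.toFinset_card_le _).trans (card_roots' P))
    exact_mod_cast this.trans h1
  have hsum : ∑ a ∈ univ.filter (fun a : ZMod q => a ≠ 0), pr (fun v : V => g (p₀ + a • v) = 0) =
      ((q : ℝ) - 1) * pr (fun p => g p = 0) := by
    have : ∀ a ∈ univ.filter (fun a : ZMod q => a ≠ 0), pr (fun v : V => g (p₀ + a • v) = 0) =
        pr (fun p => g p = 0) := by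
      intro a ha
      rw [mem_filter] at ha
      exact pr_equiv ((smulE a ha.2).trans (Equiv.addLeft p₀)) (fun p => g p = 0)
    rw [sum_congr rfl this, sum_const, nsmul_eq_mul, filter_ne', card_erase_of_mem (mem_univ _),
      card_univ, ZMod.card, Nat.cast_sub hq, Nat.cast_one]
  rw [← hsum]
  unfold pr
  rw [← sum_div, div_le_iff₀ (by positivity), sum_comm]
  refine (sum_le_sum (g := fun _ : V => (d : ℝ)) ?_).trans (by simp [mul_comm])
  intro v _
  refine le_trans (le_of_eq ?_) (hline v)
  rw [← filter_filter, card_filter (fun a : ZMod q => g (p₀ + a • v) = 0)]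
  push_cast
  apply sum_congr rfl
  intro a _
  by_cases h : g (p₀ + a • v) = 0 <;> simp [h]

theorem LD.pr_zero_le {d : ℕ} {g : V → ZMod q} (hg : LD d g) (hne : ∃ p, g p ≠ 0) :
    pr (fun p => g p = 0) ≤ d / ((q : ℝ) - 1) := by
  have hq : (1 : ℝ) < q := by exact_mod_cast (Fact.out : q.Prime).one_lt
  rw [le_div_iff₀ (by linarith), mul_comm]
  exact hg.pr_zero_mul_le hne

/-- two different functions of degree at most `d` agree on few points -/
theorem LD.pr_agree_le {d : ℕ} {f g : V → ZMod q} (hf : LD d f) (hg : LD d g) (hne : f ≠ g) :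
    pr (fun p => f p = g p) ≤ d / ((q : ℝ) - 1) := by
  have h1 : ∃ p, f p - g p ≠ 0 := by
    by_contra hc
    push Not at hc
    exact hne (funext fun p => sub_eq_zero.1 (hc p))
  refine le_trans (le_of_eq ?_) ((hf.sub hg).pr_zero_le h1)
  apply pr_congr
  intro p
  rw [sub_eq_zero]

/-- functions of degree at most `d` that agree often enough are equal -/
theorem LD.eq_of_pr {d : ℕ} {f g : V → ZMod q} (hf : LD d f) (hg : LD d g)
    (h : (d : ℝ) / ((q : ℝ) - 1) < pr (fun p => f p = g p)) : f = g := by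
  by_contra hne
  exact absurd (hf.pr_agree_le hg hne) (not_le.2 h)

/-- the low-degree test with its conclusion in terms of `LD` -/
theorem rs_LD {d : ℕ} (hd : d + 2 ≤ q) (f : V → ZMod q) (τ : ℝ)
    (hτ : pr (fun s : V × V => ¬ Chk d f s.1 s.2) ≤ τ) (h8 : 8 * ((d : ℝ) + 2) ^ 2 * τ ≤ 1) :
    ∃ g : V → ZMod q, LD d g ∧ pr (fun p => f p ≠ g p) ≤ 2 * τ ∧
      ∀ p, pr (fun v => cor d f p v ≠ g p) ≤ 2 * (d + 1) * τ := by
  obtain ⟨g, h1, h2, h3⟩ := rs hd f τ hτ h8
  exact ⟨g, LD_of_chk (by omega) h1, h2, h3⟩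

/-- a function close to one of degree at most `d` is corrected at every point -/
theorem cor_near {d : ℕ} (hd : d + 2 ≤ q) (f g : V → ZMod q) (hg : LD d g) (η : ℝ)
    (hη : pr (fun p => f p ≠ g p) ≤ η) (p : V) :
    pr (fun v => cor d f p v ≠ g p) ≤ (d + 1) * η := by
  classical
  have h1 : pr (fun v : V => ∃ t ∈ range (d + 1), f (p + ((t + 1 : ℕ) : ZMod q) • v) ≠
      g (p + ((t + 1 : ℕ) : ZMod q) • v)) ≤ ∑ _t ∈ range (d + 1), η := by
    apply pr_exists_le (range (d + 1)) (fun t (v : V) => f (p + ((t + 1 : ℕ) : ZMod q) • v) ≠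
      g (p + ((t + 1 : ℕ) : ZMod q) • v))
    intro t ht
    rw [mem_range] at ht
    have ht0 : ((t + 1 : ℕ) : ZMod q) ≠ 0 := natCast_ne_zero_of_lt (by omega) (by omega)
    exact (pr_equiv ((smulE _ ht0).trans (Equiv.addLeft p)) (fun p => f p ≠ g p)).le.trans hη
  have h2 : ∑ _t ∈ range (d + 1), η = (d + 1) * η := by simp
  rw [h2] at h1
  refine (pr_mono ?_).trans h1
  intro v hv
  by_contra hc
  push Not at hc
  apply hv
  rw [← hg.cor_eq p v]
  unfold cor
  congr 1
  apply sum_congr rfl
  intro t ht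
  rw [hc t ht]

end SZ

end Vale.Agent.P330.RS
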