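import Vale.Agent.Lib.PCP.AR.Blr
import Vale.Agent.P330.H855.RA

/-!
Sampler on `Fin M → ZMod q`: the shifts by `s • dir α`, `s, α ∈ F_q`, `dir α i = α ^ i`, form an
expanding family with all nontrivial eigenvalues in `[0, (M - 1) / q]`.
-/

namespace Vale.Agent.P330.L.Samp

open Finset PCP.AR

noncomputable section

variable {q : ℕ} [hq : Fact q.Prime] {M : ℕ}

/-- the direction `(1, α, α ^ 2, …)` -/
def dir (M : ℕ) (α : ZMod q) : Fin M → ZMod q := fun i => α ^ (i : ℕ)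

/-- the characters -/
def ch (a ω : Fin M → ZMod q) : ℂ := ZMod.stdAddChar (a ⬝ᵥ ω)

theorem ch_add (a ω ω' : Fin M → ZMod q) : ch a (ω + ω') = ch a ω * ch a ω' := by
  unfold ch
  rw [dotProduct_add, AddChar.map_add_eq_mul]

theorem ch_comm (a ω : Fin M → ZMod q) : ch a ω = ch ω a := by
  unfold ch
  rw [dotProduct_comm]

theorem conj_ch (a ω : Fin M → ZMod q) : (starRingEnd ℂ) (ch a ω) = ch a (-ω) := by
  unfold ch
  rw [← AddChar.map_neg_eq_conj, dotProduct_neg]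

theorem sum_stdAddChar (c : ZMod q) :
    ∑ s : ZMod q, ZMod.stdAddChar (s * c) = if c = 0 then (q : ℂ) else 0 := by
  have := AddChar.sum_mulShift (R := ZMod q) (R' := ℂ) (ψ := ZMod.stdAddChar) c
    (ZMod.isPrimitive_stdAddChar q)
  rw [this, ZMod.card]
  split_ifs <;> simp

theorem sum_ch (a : Fin M → ZMod q) :
    ∑ ω : Fin M → ZMod q, ch a ω = if a = 0 then ((q : ℂ) ^ M) else 0 := by
  have h : ∀ ω : Fin M → ZMod q, ch a ω = ∏ i, ZMod.stdAddChar (ω i * a i) := by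
    intro ω
    unfold ch dotProduct
    have hs : ∀ (s : Finset (Fin M)) (f : Fin M → ZMod q),
        (ZMod.stdAddChar (∑ i ∈ s, f i) : ℂ) = ∏ i ∈ s, ZMod.stdAddChar (f i) := by
      intro s f
      classical
      induction s using Finset.induction_on with
      | empty => simp
      | insert i s hi ih =>
        rw [Finset.sum_insert hi, Finset.prod_insert hi, AddChar.map_add_eq_mul, ih]
    rw [hs]
    exact Finset.prod_congr rfl fun i _ => by rw [mul_comm]
  rw [Finset.sum_congr rfl fun ω _ => h ω]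
  rw [← Fintype.piFinset_univ, ← Finset.prod_univ_sum (fun _ => univ)
    (fun i s => ZMod.stdAddChar (s * a i))]
  simp_rw [sum_stdAddChar]
  by_cases ha : a = 0
  · simp [ha]
  · rw [if_neg ha]
    obtain ⟨i, hi⟩ := Function.ne_iff.1 ha
    exact Finset.prod_eq_zero (mem_univ i) (if_neg hi)

/-- the Fourier transform -/
def ft (g : (Fin M → ZMod q) → ℝ) (a : Fin M → ZMod q) : ℂ := ∑ ω, (g ω : ℂ) * ch a ω

theorem parseval (g : (Fin M → ZMod q) → ℝ) :
    ∑ a, ‖ft g a‖ ^ 2 = (q : ℝ) ^ M * ∑ ω, g ω ^ 2 := by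
  have key : ∑ a, ((‖ft g a‖ ^ 2 : ℝ) : ℂ) = ((q : ℂ) ^ M) * ∑ ω, ((g ω : ℂ)) ^ 2 := by
    have h1 : ∀ a, ((‖ft g a‖ ^ 2 : ℝ) : ℂ)
        = ∑ ω, ∑ ω', (g ω : ℂ) * (g ω' : ℂ) * ch a (ω - ω') := by
      intro a
      rw [← Complex.normSq_eq_norm_sq, ← Complex.mul_conj]
      unfold ft
      rw [map_sum, Finset.sum_mul_sum]
      refine Finset.sum_congr rfl fun ω _ => Finset.sum_congr rfl fun ω' _ => ?_
      rw [map_mul, conj_ch, Complex.conj_ofReal, sub_eq_add_neg, ch_add]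
      ring
    rw [Finset.sum_congr rfl fun a _ => h1 a, Finset.sum_comm, Finset.mul_sum]
    refine Finset.sum_congr rfl fun ω _ => ?_
    rw [Finset.sum_comm, Finset.sum_eq_single ω]
    · rw [← Finset.mul_sum]
      have : ∀ a, ch a (ω - ω) = ch (ω - ω) a := fun a => ch_comm _ _
      rw [Finset.sum_congr rfl fun a _ => this a, sum_ch, if_pos (sub_self ω)]
      ring
    · intro ω' _ hne
      rw [← Finset.mul_sum, Finset.sum_congr rfl fun a _ => ch_comm a (ω - ω'), sum_ch,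
        if_neg (sub_ne_zero.2 (Ne.symm hne)), mul_zero]
    · intro h
      exact absurd (mem_univ _) h
  exact_mod_cast key

/-- the average over the shifts `s • dir α` -/
def av (g : (Fin M → ZMod q) → ℝ) (ω : Fin M → ZMod q) : ℝ :=
  (∑ s : ZMod q, ∑ α : ZMod q, g (ω + s • dir M α)) / (q : ℝ) ^ 2

/-- number of the `α` with `⟨a, dir α⟩ = 0` -/
def nz (a : Fin M → ZMod q) : ℕ := #{α : ZMod q | a ⬝ᵥ dir M α = 0}

theorem nz_le {a : Fin M → ZMod q} (ha : a ≠ 0) : nz a ≤ M - 1 := by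
  classical
  set P : Polynomial (ZMod q) := ∑ i : Fin M, Polynomial.C (a i) * Polynomial.X ^ (i : ℕ) with hP
  have hcoef : ∀ i : Fin M, P.coeff i = a i := by
    intro i
    rw [hP, Polynomial.finsetSum_coeff, Finset.sum_eq_single i]
    · simp
    · intro j _ hj
      rw [Polynomial.coeff_C_mul, Polynomial.coeff_X_pow, if_neg, mul_zero]
      intro h
      exact hj (Fin.ext h.symm)
    · intro h
      exact absurd (mem_univ _) h
  have hP0 : P ≠ 0 := by
    obtain ⟨i, hi⟩ := Function.ne_iff.1 ha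
    intro h
    apply hi
    rw [← hcoef i, h]
    simp
  have hM : 0 < M := by
    obtain ⟨i, _⟩ := Function.ne_iff.1 ha
    exact i.pos
  have hdeg : P.natDegree ≤ M - 1 := by
    apply Polynomial.natDegree_sum_le_of_forall_le
    intro i _
    refine (Polynomial.natDegree_C_mul_X_pow_le _ _).trans ?_
    have := i.isLt
    omega
  have hsub : ({α : ZMod q | a ⬝ᵥ dir M α = 0} : Finset (ZMod q)) ⊆ P.roots.toFinset := by
    intro α hα
    rw [Finset.mem_filter] at hα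
    rw [Multiset.mem_toFinset, Polynomial.mem_roots hP0, Polynomial.IsRoot.def, hP,
      Polynomial.eval_finsetSum]
    rw [← hα.2]
    unfold dotProduct dir
    exact Finset.sum_congr rfl fun i _ => by simp
  calc nz a ≤ P.roots.toFinset.card := Finset.card_le_card hsub
    _ ≤ Multiset.card P.roots := Multiset.toFinset_card_le _
    _ ≤ P.natDegree := Polynomial.card_roots' P
    _ ≤ M - 1 := hdeg

theorem ft_av (g : (Fin M → ZMod q) → ℝ) (a : Fin M → ZMod q) :
    ft (av g) a = ((nz a : ℝ) / q : ℝ) * ft g a := by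
  have hq0 : (q : ℂ) ≠ 0 := by exact_mod_cast hq.out.ne_zero
  have h1 : ft (av g) a
      = (∑ s : ZMod q, ∑ α : ZMod q, ∑ ω, (g (ω + s • dir M α) : ℂ) * ch a ω) / (q : ℂ) ^ 2 := by
    unfold ft av
    have : ∀ ω : Fin M → ZMod q,
        (((∑ s : ZMod q, ∑ α : ZMod q, g (ω + s • dir M α)) / (q : ℝ) ^ 2 : ℝ) : ℂ) * ch a ω
        = (∑ s : ZMod q, ∑ α : ZMod q, (g (ω + s • dir M α) : ℂ) * ch a ω) / (q : ℂ) ^ 2 := by
      intro ω
      push_cast
      rw [div_mul_eq_mul_div, Finset.sum_mul]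
      congr 1
      exact Finset.sum_congr rfl fun s _ => Finset.sum_mul _ _ _
    rw [Finset.sum_congr rfl fun ω _ => this ω, ← Finset.sum_div, Finset.sum_comm]
    congr 1
    exact Finset.sum_congr rfl fun s _ => Finset.sum_comm
  have h2 : ∀ s α : ZMod q, ∑ ω, (g (ω + s • dir M α) : ℂ) * ch a ω
      = ft g a * ZMod.stdAddChar (-s * (a ⬝ᵥ dir M α)) := by
    intro s α
    have := Equiv.sum_comp (Equiv.addRight (s • dir M α))
      (fun ω => (g ω : ℂ) * ch a (ω - s • dir M α))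
    simp only [Equiv.coe_addRight, add_sub_cancel_right] at this
    rw [this]
    unfold ft
    rw [Finset.sum_mul]
    refine Finset.sum_congr rfl fun ω _ => ?_
    rw [sub_eq_add_neg, ch_add, ← mul_assoc]
    congr 1
    unfold ch
    rw [dotProduct_neg, dotProduct_smul, smul_eq_mul, neg_mul]
  have h3 : ∀ α : ZMod q, ∑ s : ZMod q, (ZMod.stdAddChar (-s * (a ⬝ᵥ dir M α)) : ℂ)
      = if a ⬝ᵥ dir M α = 0 then (q : ℂ) else 0 := by
    intro α
    rw [← sum_stdAddChar]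
    exact Equiv.sum_comp (Equiv.neg (ZMod q))
      (fun s => (ZMod.stdAddChar (s * (a ⬝ᵥ dir M α)) : ℂ))
  rw [h1]
  simp_rw [h2]
  rw [Finset.sum_comm]
  simp_rw [← Finset.mul_sum]
  rw [Finset.sum_congr rfl fun α _ => h3 α, ← Finset.sum_filter, Finset.sum_const, nsmul_eq_mul]
  unfold nz
  push_cast
  field_simp

theorem ft_zero (g : (Fin M → ZMod q) → ℝ) : ft g 0 = ((∑ ω, g ω : ℝ) : ℂ) := by
  unfold ft ch
  simp

/-- **contraction** -/
theorem sum_av_sq_le (g : (Fin M → ZMod q) → ℝ) (hg : ∑ ω, g ω = 0) :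
    ∑ ω, av g ω ^ 2 ≤ (((M - 1 : ℕ) : ℝ) / q) ^ 2 * ∑ ω, g ω ^ 2 := by
  have hq0 : (0 : ℝ) < (q : ℝ) ^ M := by
    have : (0 : ℝ) < q := by exact_mod_cast hq.out.pos
    positivity
  have h : (q : ℝ) ^ M * ∑ ω, av g ω ^ 2
      ≤ (q : ℝ) ^ M * ((((M - 1 : ℕ) : ℝ) / q) ^ 2 * ∑ ω, g ω ^ 2) := by
    rw [← parseval, mul_left_comm, ← parseval, Finset.mul_sum]
    apply Finset.sum_le_sum
    intro a _
    rw [ft_av, norm_mul, mul_pow, Complex.norm_real, Real.norm_eq_abs, sq_abs]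
    by_cases ha : a = 0
    · rw [ha, ft_zero, hg]
      simp
    · apply mul_le_mul_of_nonneg_right _ (by positivity)
      have : (nz a : ℝ) ≤ ((M - 1 : ℕ) : ℝ) := by exact_mod_cast nz_le ha
      gcongr
  exact le_of_mul_le_mul_left h hq0

theorem sum_shift (g : (Fin M → ZMod q) → ℝ) (v : Fin M → ZMod q) :
    ∑ ω, g (ω + v) = ∑ ω, g ω := Equiv.sum_comp (Equiv.addRight v) g

theorem sum_av (g : (Fin M → ZMod q) → ℝ) : ∑ ω, av g ω = ∑ ω, g ω := by
  have hq0 : (q : ℝ) ≠ 0 := by exact_mod_cast hq.out.ne_zero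
  unfold av
  rw [← Finset.sum_div, Finset.sum_comm]
  have : ∀ s : ZMod q, ∑ ω, ∑ α : ZMod q, g (ω + s • dir M α) = q * ∑ ω, g ω := by
    intro s
    rw [Finset.sum_comm]
    simp_rw [sum_shift]
    simp [ZMod.card]
  rw [Finset.sum_congr rfl fun s _ => this s]
  simp only [sum_const, card_univ, ZMod.card, nsmul_eq_mul]
  field_simp

/-- **positivity** of the quadratic form -/
theorem sum_mul_av_nonneg (g : (Fin M → ZMod q) → ℝ) : 0 ≤ ∑ ω, g ω * av g ω := by
  have hq0 : (0 : ℝ) < q := by exact_mod_cast hq.out.pos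
  have h1 : ∑ ω, g ω * av g ω
      = (∑ α : ZMod q, ∑ ω, ∑ s : ZMod q, g ω * g (ω + s • dir M α)) / (q : ℝ) ^ 2 := by
    unfold av
    rw [eq_div_iff (by positivity), Finset.sum_mul, Finset.sum_comm]
    refine Finset.sum_congr rfl fun ω _ => ?_
    rw [mul_assoc, div_mul_cancel₀ _ (by positivity), Finset.sum_comm, Finset.mul_sum]
    exact Finset.sum_congr rfl fun α _ => Finset.mul_sum _ _ _
  rw [h1]
  apply div_nonneg _ (by positivity)
  apply Finset.sum_nonneg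
  intro α _
  -- `q * ∑ ω, g ω * ∑ s, g (ω + s v) = ∑ ω (∑ s, g (ω + s v)) ^ 2`
  have h2 : (q : ℝ) * ∑ ω, ∑ s : ZMod q, g ω * g (ω + s • dir M α)
      = ∑ ω, (∑ s : ZMod q, g (ω + s • dir M α)) ^ 2 := by
    have h3 : ∀ ω : Fin M → ZMod q, (∑ s : ZMod q, g (ω + s • dir M α)) ^ 2
        = ∑ t : ZMod q, ∑ s : ZMod q, g (ω + t • dir M α) * g (ω + t • dir M α + s • dir M α) := by
      intro ω
      rw [sq, Finset.sum_mul]
      refine Finset.sum_congr rfl fun t _ => ?_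
      rw [← Finset.mul_sum]
      congr 1
      have := Equiv.sum_comp (Equiv.addLeft t) (fun s : ZMod q => g (ω + s • dir M α))
      rw [← this]
      refine Finset.sum_congr rfl fun s _ => ?_
      simp only [Equiv.coe_addLeft, add_smul, add_assoc]
    rw [Finset.sum_congr rfl fun ω _ => h3 ω,
      Finset.sum_comm (f := fun (ω : Fin M → ZMod q) (t : ZMod q) => ∑ s : ZMod q,
        g (ω + t • dir M α) * g (ω + t • dir M α + s • dir M α))]
    have h4 : ∀ t : ZMod q, ∑ ω, ∑ s : ZMod q,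
        g (ω + t • dir M α) * g (ω + t • dir M α + s • dir M α)
        = ∑ ω, ∑ s : ZMod q, g ω * g (ω + s • dir M α) := fun t =>
      sum_shift (fun ω => ∑ s : ZMod q, g ω * g (ω + s • dir M α)) (t • dir M α)
    rw [Finset.sum_congr rfl fun t _ => h4 t]
    simp [ZMod.card]
  have h5 : 0 ≤ (q : ℝ) * ∑ ω, ∑ s : ZMod q, g ω * g (ω + s • dir M α) := by
    rw [h2]
    positivity
  exact nonneg_of_mul_nonneg_right h5 hq0

/-- the same average with the directions multiplied by a nonzero scalar -/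
theorem av_smul (g : (Fin M → ZMod q) → ℝ) {t : ZMod q} (ht : t ≠ 0) (ω : Fin M → ZMod q) :
    (∑ s : ZMod q, ∑ α : ZMod q, g (ω + (t * s) • dir M α)) / (q : ℝ) ^ 2 = av g ω := by
  unfold av
  congr 1
  exact Equiv.sum_comp (Equiv.mulLeft₀ t ht)
    (fun s : ZMod q => ∑ α : ZMod q, g (ω + s • dir M α))

/-- the shifts as permutations -/
def sh (M : ℕ) (p : ZMod q × ZMod q) : (Fin M → ZMod q) ≃ (Fin M → ZMod q) :=
  Equiv.addRight (p.1 • dir M p.2)

theorem avg_sh (g : (Fin M → ZMod q) → ℝ) (ω : Fin M → ZMod q) :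
    H855.avg (sh M) g ω = av g ω := by
  unfold H855.avg av sh
  rw [Fintype.sum_prod_type, Fintype.card_prod, ZMod.card]
  push_cast
  rw [sq]
  rfl

/-- Cauchy–Schwarz form of the contraction -/
theorem abs_sum_mul_av_le (f g : (Fin M → ZMod q) → ℝ) (hg : ∑ ω, g ω = 0) :
    |∑ ω, f ω * av g ω|
      ≤ (((M - 1 : ℕ) : ℝ) / q) * (Real.sqrt (∑ ω, f ω ^ 2) * Real.sqrt (∑ ω, g ω ^ 2)) := by
  have hl : (0 : ℝ) ≤ ((M - 1 : ℕ) : ℝ) / q := by positivity
  have h1 : (∑ ω, f ω * av g ω) ^ 2 ≤ (∑ ω, f ω ^ 2) * ∑ ω, av g ω ^ 2 :=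
    Finset.sum_mul_sq_le_sq_mul_sq _ _ _
  have h2 := sum_av_sq_le g hg
  apply abs_le_of_sq_le_sq _ (by positivity)
  rw [mul_pow, mul_pow, Real.sq_sqrt (by positivity), Real.sq_sqrt (by positivity)]
  calc (∑ ω, f ω * av g ω) ^ 2 ≤ (∑ ω, f ω ^ 2) * ∑ ω, av g ω ^ 2 := h1
    _ ≤ (∑ ω, f ω ^ 2) * ((((M - 1 : ℕ) : ℝ) / q) ^ 2 * ∑ ω, g ω ^ 2) :=
        mul_le_mul_of_nonneg_left h2 (by positivity)
    _ = _ := by ring

theorem gap_sh : H855.Gap (sh (q := q) M) (((M - 1 : ℕ) : ℝ) / q) := by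
  intro f hf
  have h := abs_sum_mul_av_le f f hf
  rw [Real.mul_self_sqrt (by positivity)] at h
  simpa only [avg_sh] using h

/-! ### Set versions -/

open Classical in
theorem pr_eq_sum {Ω : Type*} [Fintype Ω] (p : Ω → Prop) :
    pr p = (∑ ω, if p ω then (1 : ℝ) else 0) / Fintype.card Ω := rfl

/-- fraction of the shifted samples in `B` -/
def fr (B : (Fin M → ZMod q) → Prop) (t : ZMod q) (ω : Fin M → ZMod q) : ℝ :=
  pr fun p : ZMod q × ZMod q => B (ω + (t * p.1) • dir M p.2)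

open Classical in
theorem fr_eq (B : (Fin M → ZMod q) → Prop) {t : ZMod q} (ht : t ≠ 0) (ω : Fin M → ZMod q) :
    fr B t ω = av (fun ω => if B ω then (1 : ℝ) else 0) ω := by
  rw [← av_smul _ ht]
  unfold fr
  rw [pr_eq_sum, Fintype.sum_prod_type, Fintype.card_prod, ZMod.card]
  push_cast
  rw [sq]

theorem av_sub_const (g : (Fin M → ZMod q) → ℝ) (c : ℝ) (ω : Fin M → ZMod q) :
    av (fun ω => g ω - c) ω = av g ω - c := by
  have hq0 : (q : ℝ) ≠ 0 := by exact_mod_cast hq.out.ne_zero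
  unfold av
  simp only [Finset.sum_sub_distrib, sum_const, card_univ, ZMod.card, nsmul_eq_mul]
  field_simp

section

variable (B : (Fin M → ZMod q) → Prop)

open Classical in
theorem sum_ind : ∑ ω, (if B ω then (1 : ℝ) else 0) = (Fintype.card (Fin M → ZMod q) : ℝ) * pr B := by
  rw [pr_eq_sum, mul_div_cancel₀]
  exact_mod_cast Fintype.card_ne_zero

open Classical in
theorem sum_ind_sub : ∑ ω, ((if B ω then (1 : ℝ) else 0) - pr B) = 0 := by
  rw [Finset.sum_sub_distrib, sum_ind, sum_const, card_univ, nsmul_eq_mul, sub_self]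

open Classical in
theorem sum_ind_sub_sq :
    ∑ ω, ((if B ω then (1 : ℝ) else 0) - pr B) ^ 2
      = (Fintype.card (Fin M → ZMod q) : ℝ) * (pr B * (1 - pr B)) := by
  have h : ∀ ω, ((if B ω then (1 : ℝ) else 0) - pr B) ^ 2
      = (1 - 2 * pr B) * (if B ω then (1 : ℝ) else 0) + pr B ^ 2 := by
    intro ω
    split_ifs <;> ring
  rw [Finset.sum_congr rfl fun ω _ => h ω, Finset.sum_add_distrib, ← Finset.mul_sum, sum_ind,
    sum_const, card_univ, nsmul_eq_mul]
  ring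

/-- mean square deviation of the fraction of the samples in `B` -/
theorem sum_fr_sub_sq {t : ZMod q} (ht : t ≠ 0) :
    ∑ ω, (fr B t ω - pr B) ^ 2
      ≤ (((M - 1 : ℕ) : ℝ) / q) ^ 2
        * ((Fintype.card (Fin M → ZMod q) : ℝ) * (pr B * (1 - pr B))) := by
  classical
  have h := sum_av_sq_le (fun ω => (if B ω then (1 : ℝ) else 0) - pr B) (sum_ind_sub B)
  rw [sum_ind_sub_sq] at h
  refine le_trans (le_of_eq ?_) h
  refine Finset.sum_congr rfl fun ω _ => ?_
  rw [av_sub_const, fr_eq B ht]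

/-- **Sampler**: the fraction of the `q ^ 2` samples `ω + t s (1, α, α ^ 2, …)` in `B` deviates from
the density of `B` by `γ` or more only for few `ω`. -/
theorem pr_fr {t : ZMod q} (ht : t ≠ 0) {γ : ℝ} (hγ : 0 < γ) :
    pr (fun ω => γ ≤ |fr B t ω - pr B|) ≤ (((M - 1 : ℕ) : ℝ) / (q * γ)) ^ 2 * pr B := by
  classical
  have hN : (0 : ℝ) < (Fintype.card (Fin M → ZMod q) : ℝ) := by
    exact_mod_cast Fintype.card_pos
  have hq0 : (0 : ℝ) < q := by exact_mod_cast hq.out.pos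
  have h := sum_fr_sub_sq B ht
  have h1 : γ ^ 2 * ∑ ω, (if γ ≤ |fr B t ω - pr B| then (1 : ℝ) else 0)
      ≤ ∑ ω, (fr B t ω - pr B) ^ 2 := by
    rw [Finset.mul_sum]
    apply Finset.sum_le_sum
    intro ω _
    split_ifs with hc
    · rw [mul_one, ← sq_abs (fr B t ω - pr B)]
      gcongr
    · rw [mul_zero]
      positivity
  have hp := pr_nonneg B
  have h2 : pr B * (1 - pr B) ≤ pr B := by nlinarith
  rw [pr_eq_sum, div_le_iff₀ hN]
  have h3 : γ ^ 2 * ∑ ω, (if γ ≤ |fr B t ω - pr B| then (1 : ℝ) else 0)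
      ≤ (((M - 1 : ℕ) : ℝ) / q) ^ 2 * ((Fintype.card (Fin M → ZMod q) : ℝ) * pr B) :=
    h1.trans (h.trans (by gcongr))
  have h4 : (((M - 1 : ℕ) : ℝ) / (q * γ)) ^ 2 * pr B * (Fintype.card (Fin M → ZMod q) : ℝ)
      = ((((M - 1 : ℕ) : ℝ) / q) ^ 2 * ((Fintype.card (Fin M → ZMod q) : ℝ) * pr B)) / γ ^ 2 := by
    field_simp
  rw [h4, le_div_iff₀ (by positivity)]
  linarith

/-- upper tail -/
theorem pr_le_fr {t : ZMod q} (ht : t ≠ 0) {γ : ℝ} (hγ : 0 < γ) :
    pr (fun ω => pr B + γ ≤ fr B t ω) ≤ (((M - 1 : ℕ) : ℝ) / (q * γ)) ^ 2 * pr B :=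
  (pr_mono fun ω h => by
    have : γ ≤ fr B t ω - pr B := by linarith
    exact this.trans (le_abs_self _)).trans (pr_fr B ht hγ)

/-- lower tail -/
theorem pr_fr_le {t : ZMod q} (ht : t ≠ 0) {γ : ℝ} (hγ : 0 < γ) :
    pr (fun ω => fr B t ω ≤ pr B - γ) ≤ (((M - 1 : ℕ) : ℝ) / (q * γ)) ^ 2 * pr B :=
  (pr_mono fun ω h => by
    have : γ ≤ -(fr B t ω - pr B) := by linarith
    exact this.trans (neg_le_abs _)).trans (pr_fr B ht hγ)

end

/-- **Mixing**: a random point and a random sample of it. -/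
theorem mixing (A B : (Fin M → ZMod q) → Prop) {t : ZMod q} (ht : t ≠ 0) :
    |pr (fun p : (Fin M → ZMod q) × (ZMod q × ZMod q) =>
        A p.1 ∧ B (p.1 + (t * p.2.1) • dir M p.2.2)) - pr A * pr B|
      ≤ (((M - 1 : ℕ) : ℝ) / q) * (Real.sqrt (pr A) * Real.sqrt (pr B)) := by
  classical
  have hN : (0 : ℝ) < (Fintype.card (Fin M → ZMod q) : ℝ) := by
    exact_mod_cast Fintype.card_pos
  set N : ℝ := (Fintype.card (Fin M → ZMod q) : ℝ) with hNdef
  have h := abs_sum_mul_av_le (fun ω => if A ω then (1 : ℝ) else 0)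
    (fun ω => (if B ω then (1 : ℝ) else 0) - pr B) (sum_ind_sub B)
  have e1 : ∑ ω : Fin M → ZMod q, (if A ω then (1 : ℝ) else 0)
        * av (fun ω => (if B ω then (1 : ℝ) else 0) - pr B) ω
      = N * (pr (fun p : (Fin M → ZMod q) × (ZMod q × ZMod q) =>
        A p.1 ∧ B (p.1 + (t * p.2.1) • dir M p.2.2)) - pr A * pr B) := by
    rw [pr_prod, mul_sub, mul_div_cancel₀ _ hN.ne', ← mul_assoc, ← sum_ind A, Finset.sum_mul,
      ← Finset.sum_sub_distrib]
    refine Finset.sum_congr rfl fun ω _ => ?_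
    rw [av_sub_const, ← fr_eq B ht]
    by_cases hA : A ω
    · simp [hA, fr]
    · simp [hA, pr_eq_sum]
  have e2 : ∑ ω : Fin M → ZMod q, (if A ω then (1 : ℝ) else 0) ^ 2 = N * pr A := by
    rw [← sum_ind A]
    exact Finset.sum_congr rfl fun ω _ => by split_ifs <;> norm_num
  rw [e1, e2, sum_ind_sub_sq, abs_mul, abs_of_pos hN] at h
  have hA := pr_nonneg A
  have hB := pr_nonneg B
  have h6 : Real.sqrt (N * (pr B * (1 - pr B))) ≤ Real.sqrt (N * pr B) := by
    apply Real.sqrt_le_sqrt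
    have : pr B * (1 - pr B) ≤ pr B := by nlinarith
    gcongr
  have h7 : Real.sqrt (N * pr A) * Real.sqrt (N * pr B)
      = N * (Real.sqrt (pr A) * Real.sqrt (pr B)) := by
    rw [Real.sqrt_mul hN.le, Real.sqrt_mul hN.le]
    have := Real.mul_self_sqrt hN.le
    linear_combination (Real.sqrt (pr A) * Real.sqrt (pr B)) * this
  have h8 : N * |pr (fun p : (Fin M → ZMod q) × (ZMod q × ZMod q) =>
        A p.1 ∧ B (p.1 + (t * p.2.1) • dir M p.2.2)) - pr A * pr B|
      ≤ N * ((((M - 1 : ℕ) : ℝ) / q) * (Real.sqrt (pr A) * Real.sqrt (pr B))) := by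
    refine h.trans ?_
    have h9 : Real.sqrt (N * pr A) * Real.sqrt (N * (pr B * (1 - pr B)))
        ≤ N * (Real.sqrt (pr A) * Real.sqrt (pr B)) := by
      rw [← h7]
      gcongr
    calc (((M - 1 : ℕ) : ℝ) / q) * (Real.sqrt (N * pr A) * Real.sqrt (N * (pr B * (1 - pr B))))
        ≤ (((M - 1 : ℕ) : ℝ) / q) * (N * (Real.sqrt (pr A) * Real.sqrt (pr B))) := by gcongr
      _ = _ := by ring
  exact le_of_mul_le_mul_left h8 hN

end

end Vale.Agent.P330.L.Samp
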