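import Vale.Agent.P330.H855.TG
import Vale.Agent.P330.S.NumPT

/-!
# Counting circuits

`thrOp K inp nod j` (`j < thrLen n K`) is the operation number `j` of a circuit with the inputs
`inp 0, …, inp (n - 1)` (nodes of any type `ν`); it writes the node `nod j` and reads inputs and
nodes `nod j'` with `j' < j` (`thrOp_ins`).  The last node `nod (thrLen n K - 1)` reads `true` as
soon as at least `K` inputs read `true`, and `false` as soon as less than `K` inputs do not read
`false` (`thr_true`, `thr_false`).  `PT_thrGates`: polynomial time.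
-/

namespace Vale.Agent.P330.L

open Vale.Agent.Lib.PolyTime

section rdlemmas

variable {W : Type} {ε t : ℝ} {x : W → ℝ} {a b : W}

theorem rd_one (h : (Op.const 1 : Op W).Sat ε x t) : Rd ε t true := by
  simp only [Op.Sat, Rd] at h ⊢
  rw [abs_le] at h; push_cast at h; linarith [h.1]

theorem rd_zero (h : (Op.const 0 : Op W).Sat ε x t) : Rd ε t false := by
  simp only [Op.Sat, Rd] at h ⊢
  rw [abs_le] at h; push_cast at h; linarith [h.2]

theorem rd_and_true (h : (Op.and a b).Sat ε x t) (ha : Rd ε (x a) true)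
    (hb : Rd ε (x b) true) : Rd ε t true := h.1 ⟨ha, hb⟩

theorem rd_and_false (h : (Op.and a b).Sat ε x t)
    (hab : Rd ε (x a) false ∨ Rd ε (x b) false) : Rd ε t false := h.2 hab

theorem rd_or_true (h : (Op.or a b).Sat ε x t)
    (hab : Rd ε (x a) true ∨ Rd ε (x b) true) : Rd ε t true := h.1 hab

theorem rd_or_false (h : (Op.or a b).Sat ε x t) (ha : Rd ε (x a) false)
    (hb : Rd ε (x b) false) : Rd ε t false := h.2 ⟨ha, hb⟩

end rdlemmas

/-- number of the half `b` of the cell `(i, c)` of the table -/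
def thrIdx (K i c b : ℕ) : ℕ := 2 * ((K + 1) * i + c) + b

/-- the number of operations -/
def thrLen (n K : ℕ) : ℕ := 2 * ((K + 1) * (n + 1))

/-- The operation number `j` of the counting circuit with the threshold `K`. -/
def thrOp {ν : Type} (K : ℕ) (inp nod : ℕ → ν) (j : ℕ) : Op ν :=
  if j / 2 / (K + 1) = 0 ∨ j / 2 % (K + 1) = 0 then
    .const (if j / 2 % (K + 1) = 0 then 1 else 0)
  else if j % 2 = 0 then
    .and (nod (j - 2 * (K + 1) - 1)) (inp (j / 2 / (K + 1) - 1))
  else
    .or (nod (j - 2 * (K + 1))) (nod (j - 1))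

section index

variable {K n i c b : ℕ}

theorem thrIdx_div2 (hb : b < 2) : thrIdx K i c b / 2 = (K + 1) * i + c := by
  unfold thrIdx; omega

theorem thrIdx_div (hc : c < K + 1) (hb : b < 2) : thrIdx K i c b / 2 / (K + 1) = i := by
  rw [thrIdx_div2 hb, Nat.mul_add_div (Nat.succ_pos K), Nat.div_eq_of_lt hc, add_zero]

theorem thrIdx_mod (hc : c < K + 1) (hb : b < 2) : thrIdx K i c b / 2 % (K + 1) = c := by
  rw [thrIdx_div2 hb, Nat.mul_add_mod, Nat.mod_eq_of_lt hc]

theorem thrIdx_mod2 (hb : b < 2) : thrIdx K i c b % 2 = b := by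
  unfold thrIdx; omega

theorem thrIdx_lt (hi : i ≤ n) (hc : c < K + 1) (hb : b < 2) : thrIdx K i c b < thrLen n K := by
  unfold thrIdx thrLen
  have h1 : (K + 1) * i ≤ (K + 1) * n := Nat.mul_le_mul_left _ hi
  have h2 : (K + 1) * (n + 1) = (K + 1) * n + (K + 1) := by ring
  omega

theorem thrLen_sub_one : thrLen n K - 1 = thrIdx K n K 1 := by
  unfold thrIdx thrLen
  have h2 : (K + 1) * (n + 1) = (K + 1) * n + (K + 1) := by ring
  omega

theorem thrLen_pos : 0 < thrLen n K := by unfold thrLen; positivity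

theorem exists_thrIdx (K j : ℕ) : ∃ i c b, c < K + 1 ∧ b < 2 ∧ j = thrIdx K i c b := by
  refine ⟨j / 2 / (K + 1), j / 2 % (K + 1), j % 2, Nat.mod_lt _ (Nat.succ_pos K),
    Nat.mod_lt _ two_pos, ?_⟩
  unfold thrIdx
  rw [Nat.div_add_mod (j / 2) (K + 1)]
  omega

theorem thrIdx_lt_iff (hc : c < K + 1) (hb : b < 2) : thrIdx K i c b < thrLen n K ↔ i ≤ n := by
  refine ⟨fun h => ?_, fun h => thrIdx_lt h hc hb⟩
  by_contra hi
  push Not at hi
  unfold thrIdx thrLen at h
  have h1 : (K + 1) * (n + 1) ≤ (K + 1) * i := Nat.mul_le_mul_left _ hi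
  omega

end index

section ops

variable {ν : Type} {K n i c : ℕ} {inp nod : ℕ → ν}

theorem thrOp_zero_left (hc : c < K + 1) {b : ℕ} (hb : b < 2) :
    thrOp K inp nod (thrIdx K 0 c b) = .const (if c = 0 then 1 else 0) := by
  unfold thrOp
  rw [thrIdx_div hc hb, thrIdx_mod hc hb, if_pos (Or.inl rfl)]

theorem thrOp_zero_right {b : ℕ} (hb : b < 2) :
    thrOp K inp nod (thrIdx K i 0 b) = .const 1 := by
  unfold thrOp
  rw [thrIdx_mod (Nat.succ_pos K) hb, if_pos (Or.inr rfl), if_pos rfl]

theorem thrOp_and (hc : c + 1 < K + 1) :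
    thrOp K inp nod (thrIdx K (i + 1) (c + 1) 0) = .and (nod (thrIdx K i c 1)) (inp i) := by
  unfold thrOp
  rw [thrIdx_div hc two_pos, thrIdx_mod hc two_pos, thrIdx_mod2 two_pos, if_neg (by omega),
    if_pos rfl]
  congr 2
  unfold thrIdx
  have h2 : (K + 1) * (i + 1) = (K + 1) * i + (K + 1) := by ring
  omega

theorem thrOp_or (hc : c + 1 < K + 1) :
    thrOp K inp nod (thrIdx K (i + 1) (c + 1) 1) =
      .or (nod (thrIdx K i (c + 1) 1)) (nod (thrIdx K (i + 1) (c + 1) 0)) := by
  unfold thrOp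
  rw [thrIdx_div hc one_lt_two, thrIdx_mod hc one_lt_two, thrIdx_mod2 one_lt_two,
    if_neg (by omega), if_neg one_ne_zero]
  have h2 : (K + 1) * (i + 1) = (K + 1) * i + (K + 1) := by ring
  congr 2
  · unfold thrIdx
    omega

/-- The operation reads inputs and earlier nodes. -/
theorem thrOp_ins {j : ℕ} (hj : j < thrLen n K) {w : ν} (hw : w ∈ (thrOp K inp nod j).ins) :
    (∃ i < n, w = inp i) ∨ ∃ j' < j, w = nod j' := by
  obtain ⟨i, c, b, hc, hb, rfl⟩ := exists_thrIdx K j
  have hi : i ≤ n := (thrIdx_lt_iff hc hb).1 hj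
  rcases i with _ | i
  · rw [thrOp_zero_left hc hb] at hw
    simp [Op.ins] at hw
  rcases c with _ | c
  · rw [thrOp_zero_right hb] at hw
    simp [Op.ins] at hw
  have h2 : (K + 1) * (i + 1) = (K + 1) * i + (K + 1) := by ring
  obtain rfl | rfl : b = 0 ∨ b = 1 := by omega
  · rw [thrOp_and hc] at hw
    simp only [Op.ins, List.mem_cons, List.not_mem_nil, or_false] at hw
    rcases hw with rfl | rfl
    · exact Or.inr ⟨_, by unfold thrIdx; omega, rfl⟩
    · exact Or.inl ⟨i, hi, rfl⟩
  · rw [thrOp_or hc] at hw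
    simp only [Op.ins, List.mem_cons, List.not_mem_nil, or_false] at hw
    rcases hw with rfl | rfl
    · exact Or.inr ⟨_, by unfold thrIdx; omega, rfl⟩
    · exact Or.inr ⟨_, by unfold thrIdx; omega, rfl⟩

theorem thrOp_params {j : ℕ} : ∀ α ∈ (thrOp K inp nod j).params, 0 ≤ α ∧ α ≤ 1 := by
  unfold thrOp
  split_ifs <;> simp [Op.params]

end ops

section semantics

variable {ν : Type} {K n : ℕ} {inp nod : ℕ → ν} {ε : ℝ} {x : ν → ℝ}

open Classical in
/-- the number of `i' < i` for which the input `i'` reads `true` -/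
noncomputable def cntT (ε : ℝ) (x : ν → ℝ) (inp : ℕ → ν) (i : ℕ) : ℕ :=
  ((Finset.range i).filter fun i' => Rd ε (x (inp i')) true).card

open Classical in
/-- the number of `i' < i` for which the input `i'` does not read `false` -/
noncomputable def cntN (ε : ℝ) (x : ν → ℝ) (inp : ℕ → ν) (i : ℕ) : ℕ :=
  ((Finset.range i).filter fun i' => ¬ Rd ε (x (inp i')) false).card

theorem cntT_succ_pos {i : ℕ} (h : Rd ε (x (inp i)) true) :
    cntT ε x inp (i + 1) = cntT ε x inp i + 1 := by
  unfold cntT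
  rw [Finset.range_add_one, Finset.filter_insert, if_pos h, Finset.card_insert_of_notMem]
  simp

theorem cntT_succ_neg {i : ℕ} (h : ¬ Rd ε (x (inp i)) true) :
    cntT ε x inp (i + 1) = cntT ε x inp i := by
  unfold cntT
  rw [Finset.range_add_one, Finset.filter_insert, if_neg h]

theorem cntN_succ_pos {i : ℕ} (h : ¬ Rd ε (x (inp i)) false) :
    cntN ε x inp (i + 1) = cntN ε x inp i + 1 := by
  unfold cntN
  rw [Finset.range_add_one, Finset.filter_insert, if_pos h, Finset.card_insert_of_notMem]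
  simp

theorem cntN_succ_neg {i : ℕ} (h : Rd ε (x (inp i)) false) :
    cntN ε x inp (i + 1) = cntN ε x inp i := by
  unfold cntN
  rw [Finset.range_add_one, Finset.filter_insert, if_neg (by simpa using h)]

/-- The readings of the table. -/
theorem thr_table
    (hs : ∀ j < thrLen n K, (thrOp K inp nod j).Sat ε x (x (nod j))) :
    ∀ i ≤ n, ∀ c < K + 1,
      (c ≤ cntT ε x inp i → Rd ε (x (nod (thrIdx K i c 1))) true) ∧
      (cntN ε x inp i < c → Rd ε (x (nod (thrIdx K i c 1))) false) := by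
  intro i
  induction i with
  | zero =>
    intro _ c hc
    have h := hs _ (thrIdx_lt (Nat.zero_le n) hc one_lt_two)
    rw [thrOp_zero_left hc one_lt_two] at h
    constructor
    · intro h1
      have h2 : c = 0 := by simpa [cntT] using h1
      subst h2
      exact rd_one h
    · intro h1
      rw [if_neg (by omega)] at h
      exact rd_zero h
  | succ i ih =>
    intro hi c hc
    rcases c with _ | c
    · have h := hs _ (thrIdx_lt hi hc one_lt_two)
      rw [thrOp_zero_right one_lt_two] at h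
      exact ⟨fun _ => rd_one h, fun h1 => absurd h1 (Nat.not_lt_zero _)⟩
    · have ha := hs _ (thrIdx_lt hi hc two_pos)
      have ho := hs _ (thrIdx_lt hi hc one_lt_two)
      rw [thrOp_and hc] at ha
      rw [thrOp_or hc] at ho
      obtain ⟨hT, hF⟩ := ih (by omega) (c + 1) hc
      obtain ⟨hT', hF'⟩ := ih (by omega) c (by omega)
      constructor
      · intro h1
        by_cases hx : Rd ε (x (inp i)) true
        · rw [cntT_succ_pos hx] at h1
          exact rd_or_true ho (Or.inr (rd_and_true ha (hT' (by omega)) hx))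
        · rw [cntT_succ_neg hx] at h1
          exact rd_or_true ho (Or.inl (hT h1))
      · intro h1
        by_cases hx : Rd ε (x (inp i)) false
        · rw [cntN_succ_neg hx] at h1
          exact rd_or_false ho (hF h1) (rd_and_false ha (Or.inr hx))
        · rw [cntN_succ_pos hx] at h1
          exact rd_or_false ho (hF (by omega)) (rd_and_false ha (Or.inl (hF' (by omega))))

/-- If at least `K` inputs read `true`, so does the last node. -/
theorem thr_true (hs : ∀ j < thrLen n K, (thrOp K inp nod j).Sat ε x (x (nod j)))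
    (h : K ≤ cntT ε x inp n) : Rd ε (x (nod (thrLen n K - 1))) true := by
  rw [thrLen_sub_one]
  exact (thr_table hs n le_rfl K (Nat.lt_succ_self K)).1 h

/-- If less than `K` inputs do not read `false`, the last node reads `false`. -/
theorem thr_false (hs : ∀ j < thrLen n K, (thrOp K inp nod j).Sat ε x (x (nod j)))
    (h : cntN ε x inp n < K) : Rd ε (x (nod (thrLen n K - 1))) false := by
  rw [thrLen_sub_one]
  exact (thr_table hs n le_rfl K (Nat.lt_succ_self K)).2 h

theorem cntT_eq [DecidablePred fun i => Rd ε (x (inp i)) true] :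
    cntT ε x inp n = ((Finset.range n).filter fun i => Rd ε (x (inp i)) true).card := by
  unfold cntT
  congr!

theorem cntN_eq [DecidablePred fun i => ¬ Rd ε (x (inp i)) false] :
    cntN ε x inp n = ((Finset.range n).filter fun i => ¬ Rd ε (x (inp i)) false).card := by
  unfold cntN
  congr!

/-- Sufficient for `thr_true`: a set of at least `K` inputs reading `true`. -/
theorem le_cntT (S : Finset ℕ) (hS : ∀ i ∈ S, i < n ∧ Rd ε (x (inp i)) true) (h : K ≤ S.card) :
    K ≤ cntT ε x inp n := by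
  classical
  refine h.trans (Finset.card_le_card fun i hi => ?_)
  simp only [Finset.mem_filter, Finset.mem_range]
  exact hS i hi

/-- Sufficient for `thr_false`: outside a set of less than `K` inputs all inputs read `false`. -/
theorem cntN_lt (S : Finset ℕ) (hS : ∀ i < n, i ∉ S → Rd ε (x (inp i)) false) (h : S.card < K) :
    cntN ε x inp n < K := by
  classical
  refine lt_of_le_of_lt (Finset.card_le_card fun i hi => ?_) h
  simp only [Finset.mem_filter, Finset.mem_range] at hi
  by_contra hiS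
  exact hi.2 (hS i hi.1 hiS)

end semantics

/-! ### The counting circuit as a program -/

/-- The names of the inputs of a program with `n` inputs. -/
def finInp (n : ℕ) (i : ℕ) : Fin n ⊕ ℕ := if h : i < n then Sum.inl ⟨i, h⟩ else Sum.inr 0

theorem finInp_of_lt {n i : ℕ} (h : i < n) : finInp n i = Sum.inl ⟨i, h⟩ := dif_pos h

/-- The counting circuit with `n` inputs and the threshold `K` as a program. -/
def thrProg (n K : ℕ) : Prog (Fin n) where
  ops := (List.range (thrLen n K)).map (thrOp K (finInp n) Sum.inr)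
  pos := by simpa using thrLen_pos
  below k o h j hj := by
    rw [List.getElem?_map, Option.map_eq_some_iff] at h
    obtain ⟨k', hk, rfl⟩ := h
    obtain ⟨hk1, hk2⟩ := List.getElem?_eq_some_iff.1 hk
    rw [List.getElem_range] at hk2
    subst hk2
    rw [List.length_range] at hk1
    rcases thrOp_ins hk1 hj with ⟨i, hi, h1⟩ | ⟨j', hj', h1⟩
    · rw [finInp_of_lt hi] at h1
      exact absurd h1 (by simp)
    · rw [Sum.inr.injEq] at h1
      omega
  params_mem o ho := by
    rw [List.mem_map] at ho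
    obtain ⟨j, _, rfl⟩ := ho
    exact thrOp_params

theorem thrProg_length (n K : ℕ) : (thrProg n K).ops.length = thrLen n K := by
  simp [thrProg]

theorem thrProg_sat {n K : ℕ} {ε : ℝ} {x : Fin n ⊕ ℕ → ℝ} (h : (thrProg n K).Sat ε x) :
    ∀ j < thrLen n K, (thrOp K (finInp n) Sum.inr j).Sat ε x (x (Sum.inr j)) := by
  intro j hj
  refine h j _ ?_
  simp [thrProg, hj]

/-! ### Polynomial time -/

/-- The gate number `j` of the counting circuit, for numbered nodes. -/
def thrGate (K : ℕ) (inp nod : ℕ → ℕ) (j : ℕ) : Gate := (thrOp K inp nod j).toGate id (nod j)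

@[simp] theorem thrGate_out (K : ℕ) (inp nod : ℕ → ℕ) (j : ℕ) :
    (thrGate K inp nod j).out = nod j := Op.out_toGate _ _ _

theorem thrGate_sat {K : ℕ} {inp nod : ℕ → ℕ} {j : ℕ} {ε : ℝ} {x : ℕ → ℝ} :
    (thrGate K inp nod j).Sat ε x ↔ (thrOp K inp nod j).Sat ε x (x (nod j)) :=
  Op.sat_toGate _ _ _ _ _

theorem thrGate_eq (K : ℕ) (inp nod : ℕ → ℕ) (j : ℕ) : thrGate K inp nod j =
    if j / 2 / (K + 1) = 0 ∨ j / 2 % (K + 1) = 0 then
      .const (if j / 2 % (K + 1) = 0 then 1 else 0) (nod j)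
    else if j % 2 = 0 then
      .and (nod (j - 2 * (K + 1) - 1)) (inp (j / 2 / (K + 1) - 1)) (nod j)
    else
      .or (nod (j - 2 * (K + 1))) (nod (j - 1)) (nod j) := by
  unfold thrGate thrOp
  split_ifs <;> rfl

section PT

variable {A : Set Word} {α : Type*} [Enc α]

theorem PT_thrGate {K : α → ℕ} {inp nod : α → ℕ → ℕ} {j : α → ℕ} (hK : PT A K)
    (hinp : PT A (fun p : α × ℕ => inp p.1 p.2)) (hnod : PT A (fun p : α × ℕ => nod p.1 p.2))
    (hj : PT A j) : PT A (fun a => thrGate (K a) (inp a) (nod a) (j a)) := by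
  have hK1 : PT A (fun a => K a + 1) := PT.add hK (PT.const 1)
  have hj2 : PT A (fun a => j a / 2) := PT.div hj (PT.const 2)
  have hd : PT A (fun a => j a / 2 / (K a + 1)) := PT.div hj2 hK1
  have hm : PT A (fun a => j a / 2 % (K a + 1)) := PT.mod hj2 hK1
  have h2K : PT A (fun a => 2 * (K a + 1)) := PT.mul (PT.const 2) hK1
  have hN : ∀ {k : α → ℕ}, PT A k → PT A (fun a => nod a (k a)) := fun hk =>
    hnod.comp (PT.id.pair hk)
  have hI : ∀ {k : α → ℕ}, PT A k → PT A (fun a => inp a (k a)) := fun hk =>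
    hinp.comp (PT.id.pair hk)
  have hm0 : PT A (fun a => decide (j a / 2 % (K a + 1) = 0)) := PT.eqNat hm (PT.const 0)
  have hd0 : PT A (fun a => decide (j a / 2 / (K a + 1) = 0)) := PT.eqNat hd (PT.const 0)
  have hc : PT A (fun a => decide (j a / 2 / (K a + 1) = 0 ∨ j a / 2 % (K a + 1) = 0)) :=
    (PT.or hd0 hm0).congr fun a => by simp
  have he : PT A (fun a => decide (j a % 2 = 0)) := PT.eqNat (PT.mod hj (PT.const 2)) (PT.const 0)
  have g1 : PT A (fun a => Gate.const (if j a / 2 % (K a + 1) = 0 then 1 else 0) (nod a (j a))) :=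
    PT_gConst ((hm0.cond (PT.const (1 : ℚ)) (PT.const 0)).congr fun a => by
      by_cases h : j a / 2 % (K a + 1) = 0 <;> simp [h]) (hN hj)
  have g2 : PT A (fun a => Gate.and (nod a (j a - 2 * (K a + 1) - 1))
      (inp a (j a / 2 / (K a + 1) - 1)) (nod a (j a))) :=
    PT_gAnd (hN (PT.sub (PT.sub hj h2K) (PT.const 1))) (hI (PT.sub hd (PT.const 1))) (hN hj)
  have g3 : PT A (fun a => Gate.or (nod a (j a - 2 * (K a + 1))) (nod a (j a - 1))
      (nod a (j a))) :=
    PT_gOr (hN (PT.sub hj h2K)) (hN (PT.sub hj (PT.const 1))) (hN hj)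
  refine (hc.cond g1 (he.cond g2 g3)).congr fun a => ?_
  rw [thrGate_eq]
  by_cases h1 : j a / 2 / (K a + 1) = 0 ∨ j a / 2 % (K a + 1) = 0
  · rw [if_pos h1, decide_eq_true h1]; rfl
  · rw [if_neg h1, decide_eq_false h1]
    by_cases h2 : j a % 2 = 0
    · rw [if_pos h2, decide_eq_true h2]; rfl
    · rw [if_neg h2, decide_eq_false h2]; rfl

theorem PT_thrLen {n K : α → ℕ} (hn : PT A n) (hK : PT A K) :
    PT A (fun a => thrLen (n a) (K a)) :=
  PT.mul (PT.const 2) (PT.mul (PT.add hK (PT.const 1)) (PT.add hn (PT.const 1)))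

/-- All gates of the counting circuit. -/
def thrGates (n K : ℕ) (inp nod : ℕ → ℕ) : List Gate :=
  (List.range (thrLen n K)).map (thrGate K inp nod)

theorem length_thrGates (n K : ℕ) (inp nod : ℕ → ℕ) :
    (thrGates n K inp nod).length = thrLen n K := by simp [thrGates]

theorem mem_thrGates {n K : ℕ} {inp nod : ℕ → ℕ} {g : Gate} :
    g ∈ thrGates n K inp nod ↔ ∃ j < thrLen n K, g = thrGate K inp nod j := by
  simp only [thrGates, List.mem_map, List.mem_range]
  exact ⟨fun ⟨j, h, e⟩ => ⟨j, h, e.symm⟩, fun ⟨j, h, e⟩ => ⟨j, h, e.symm⟩⟩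

theorem PBd_thrLen {n K : α → ℕ} (hn : PBd n) (hK : PBd K) :
    PBd (fun a => thrLen (n a) (K a)) :=
  PBd.mul (PBd.const 2) (PBd.mul (PBd.add hK (PBd.const 1)) (PBd.add hn (PBd.const 1)))

theorem PT_thrGates {n K : α → ℕ} {inp nod : α → ℕ → ℕ} (hn : PT A n) (hnb : PBd n)
    (hK : PT A K) (hKb : PBd K) (hinp : PT A (fun p : α × ℕ => inp p.1 p.2))
    (hnod : PT A (fun p : α × ℕ => nod p.1 p.2)) :
    PT A (fun a => thrGates (n a) (K a) (inp a) (nod a)) := by
  have h1 : PT A (fun p : (α × ℕ) × ℕ => (p.1.1, p.2)) := (PT.fst'.comp PT.fst').pair PT.snd'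
  exact PT.map (f := fun a j => thrGate (K a) (inp a) (nod a) j)
    (PT.range (PT_thrLen hn hK) (PBd_thrLen hnb hKb))
    (PT_thrGate (hK.comp PT.fst') (inp := fun p : α × ℕ => inp p.1)
      (nod := fun p : α × ℕ => nod p.1) (hinp.comp h1) (hnod.comp h1) PT.snd')

end PT

end Vale.Agent.P330.L
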